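import Vale.Agent.P287D.Ad.Loq
import Vale.Agent.P287D.Va.Cone
import Vale.Agent.P287D.St

/-!
# P287D: sections with an exact order along a prime divisor of `V Λ`; separation
-/

open Set
open Vale.Agent.P297Z.Pl

noncomputable section

namespace Vale.Agent.P287D.Loq

variable {K : Type} [Field K] [Algebra ℂ K] {Q : Pl K} {s : Finset K} {n : ℕ}

/-- the field is algebraic over the ratios of the members of `s` -/
def Al (s : Finset K) : Prop :=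
  ∀ x : K, IsAlgebraic (IntermediateField.adjoin ℂ {a : K | ∃ f ∈ s, ∃ g ∈ s, a = f / g}) x

/-- **BALG**: a big system generates the field up to a finite extension -/
def BALG : Prop := ForK fun _ K _ _ => ∀ s : Finset K, Big (mx s) → Al s

theorem alg_of_le {S S' : Set K} (h : S ⊆ IntermediateField.adjoin ℂ S') {x : K}
    (hx : IsAlgebraic (IntermediateField.adjoin ℂ S) x) : IsAlgebraic (Algebra.adjoin ℂ S') x :=
  IntermediateField.isAlgebraic_adjoin_iff.1 (hx.ringHom_of_comp_eq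
    (IntermediateField.inclusion (IntermediateField.adjoin_le_iff.2 h)).toRingHom (RingHom.id K)
    (IntermediateField.inclusion_injective _) rfl)

theorem un_of {g : K} (hg : g ∈ s) (g0 : g ≠ 0) (e : Q.mz s = -Q.ord g) : Un (mx s) Q 1 g :=
  ⟨g0, by simpa using sec_of_mem hg, by simp [mx_apply, e]⟩

theorem ratio_mem {f g : K} (hf : f ∈ s) (hg : g ∈ s) (g0 : g ≠ 0) (e : Q.mz s = -Q.ord g) :
    f / g ∈ lq (mx s) Q :=
  ⟨1, g, un_of hg g0 e, by rw [mul_div_cancel₀ _ g0]; simpa using sec_of_mem hf⟩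

theorem rd_res {f : K} (h : f ∈ Q.ring) : Q.rd f = IsLocalRing.residue Q.ring ⟨f, h⟩ := dif_pos h

theorem rd_mul' {f g : K} (h : f ∈ Q.ring) (h' : g ∈ Q.ring) : Q.rd (f * g) = Q.rd f * Q.rd g :=
  (rd_res (mul_mem h h')).trans ((map_mul (IsLocalRing.residue Q.ring) ⟨f, h⟩ ⟨g, h'⟩).trans
    (congrArg₂ (· * ·) (rd_res h).symm (rd_res h').symm))

theorem rd_ne {f : K} (h0 : f ≠ 0) (h : Q.ord f = 0) : Q.rd f ≠ 0 := fun e => by
  have m : f ∈ Q.ring := (ord_nonneg_iff _ h0).1 h.ge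
  have a := (IsLocalRing.residue_eq_zero_iff _).1 ((rd_res m).symm.trans e)
  rw [mem_maximalIdeal_iff] at a
  exact a.elim h0 fun a => h.not_gt a

theorem ord_pos_of_rd {f : K} (h0 : f ≠ 0) (m : f ∈ Q.ring) (h : Q.rd f = 0) : 0 < Q.ord f :=
  lt_of_le_of_ne (ord_nonneg_of_mem _ m) fun e => rd_ne h0 e.symm h

/-- **LOQ** for a system -/
theorem loq (hf : Algebra.trdeg ℂ K < Cardinal.aleph0) (hs : Nz s) (h2 : Al s) (h1 : Al (Q.rs s))
    {h : K} (hh : h ∈ Q.ring) : h ∈ lq (mx s) Q := by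
  classical
  obtain ⟨g, hg, g0, e⟩ := Q.exists_mz hs
  refine le_lq hf ⟨fun x => alg_of_le ?_ (h1 x)⟩ ⟨fun x => ?_⟩ hh
  · rintro _ ⟨_, ha', _, hb', rfl⟩
    obtain ⟨a, ha, rfl⟩ := Finset.mem_image.1 ha'
    obtain ⟨b, hb, rfl⟩ := Finset.mem_image.1 hb'
    have u0 : g * Q.t ^ Q.mz s ≠ 0 := mul_ne_zero g0 (zpow_ne_zero _ Q.t_ne)
    have u1 : Q.ord (g * Q.t ^ Q.mz s) = 0 := by rw [Q.ord_mul_t g0, e, add_neg_cancel]
    have k : ∀ a ∈ s, Q.rd (a * Q.t ^ Q.mz s) = Q.rd (a / g) * Q.rd (g * Q.t ^ Q.mz s) :=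
      fun a ha => by
        rw [← rd_mul' (lq_le (ratio_mem ha hg g0 e)) ((ord_nonneg_iff _ u0).1 u1.ge),
          ← mul_assoc, div_mul_cancel₀ _ g0]
    rw [k a ha, k b hb, mul_div_mul_right _ _ (rd_ne u0 u1)]
    exact div_mem (IntermediateField.subset_adjoin _ _ ⟨_, ratio_mem ha hg g0 e, rfl⟩)
      (IntermediateField.subset_adjoin _ _ ⟨_, ratio_mem hb hg g0 e, rfl⟩)
  · have := alg_of_le (S' := (lq (mx s) Q : Set K)) ?_ (h2 x)
    · rwa [Algebra.adjoin_eq] at this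
    rintro _ ⟨a, ha, b, hb, rfl⟩
    rw [← div_div_div_cancel_right₀ g0]
    exact div_mem (IntermediateField.subset_adjoin _ _ (ratio_mem ha hg g0 e))
      (IntermediateField.subset_adjoin _ _ (ratio_mem hb hg g0 e))

/-- the ring of `Q` is the localisation of the ring of sections of `mx s` -/
def Lo (s : Finset K) (Q : Pl K) : Prop := ∀ h ∈ Q.ring, h ∈ lq (mx s) Q

theorem Un.pow {β : BD K} {w : K} (h : Un β Q 1 w) : ∀ k : ℕ, Un β Q k (w ^ k)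
  | 0 => by rw [pow_zero]; exact Un.one
  | k + 1 => by rw [pow_succ]; exact (Un.pow h k).mul h

theorem Lo.common (h : Lo s Q) (hs : Nz s) (T : Finset K) (hT : ∀ c ∈ T, c ∈ Q.ring) (m₀ : ℕ) :
    ∃ m w, m₀ ≤ m ∧ Un (mx s) Q m w ∧ ∀ c ∈ T, Sec ((m : ℝ) • mx s) (w * c) := by
  obtain ⟨m, w, u, k⟩ := Loq.common T fun c hc => h c (hT c hc)
  obtain ⟨g, hg, g0, e⟩ := Q.exists_mz hs
  have v := (un_of hg g0 e).pow m₀
  exact ⟨m₀ + m, g ^ m₀ * w, Nat.le_add_right _ _, v.mul u, fun c hc => by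
    rw [mul_assoc]; exact sec_mul v.2.1 (k c hc)⟩

/-- **POLE** -/
theorem Lo.pole (h : Lo s Q) (hs : Nz s) {β : BD K} (hβ : β ∈ CarZ K) (m₀ : ℕ) :
    ∃ (m : ℕ) (u : K), m₀ ≤ m ∧ u ≠ 0 ∧ Sec (β + (m : ℝ) • mx s) u ∧
      (dv u + (β + (m : ℝ) • mx s)) Q = 0 := by
  classical
  obtain ⟨a, b, ha, hb, rfl⟩ := mem_CarZ.1 hβ
  obtain ⟨f, hf, f0, ef⟩ := Q.exists_mz ha
  obtain ⟨g, hg, g0, eg⟩ := Q.exists_mz hb
  obtain ⟨m, w, hm, u, k⟩ := h.common hs (b.image (· / g)) (fun c hc' => by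
    obtain ⟨c, hc, rfl⟩ := Finset.mem_image.1 hc'
    exact lq_le (ratio_mem hc hg g0 eg)) m₀
  have w0 : w / g ≠ 0 := div_ne_zero u.1 g0
  have l : mx b ≤ (m : ℝ) • mx s + dv (w / g) := mx_le hb fun c hc => by
    rw [sec_add_dv w0, show c * (w / g) = w * (c / g) by ring]
    exact k _ (Finset.mem_image_of_mem _ hc)
  refine ⟨m, f * (w / g), hm, mul_ne_zero f0 w0, Or.inr fun R => ?_, ?_⟩
  · have a := l R
    have c := dv_add_mx_nonneg hf f0 R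
    rw [dv_mul f0 w0]
    simp only [Pi.add_apply, Pi.sub_apply, Pi.zero_apply] at a c ⊢
    linarith
  · have a := u.2.2
    rw [dv_mul f0 w0, dv_div u.1 g0]
    simp only [Pi.add_apply, Pi.sub_apply, Pi.smul_apply, smul_eq_mul, dv_apply, mx_apply, ef,
      eg] at a ⊢
    push_cast at a ⊢
    linarith

/-- separation by sections -/
theorem Lo.sep (h : Lo s Q) (hs : Nz s) {R : Pl K} (hR : R ≠ Q) :
    ∃ G, Rep (mx s) G ∧ 0 < G R ∧ G Q = 0 := by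
  obtain ⟨c, hc, hc'⟩ : ∃ c ∈ Q.ring, c ∉ R.ring := not_subset.1 fun e =>
    hR (Pl.ext' (congrArg _ (eq_of_le' (v := Q.toPlace) (w := R.toPlace) e)).symm)
  obtain ⟨m, w, hm, u, k⟩ := h.common hs {c} (by simpa using hc) 1
  have c0 : c ≠ 0 := fun e => hc' (e ▸ R.ring.zero_mem)
  have m0 : (0 : ℝ) < m := Nat.cast_pos.2 hm
  have r := (u.2.1.rep u.1).smul (inv_pos.2 m0).le
  rw [smul_smul, inv_mul_cancel₀ m0.ne', one_smul] at r
  refine ⟨_, r, mul_pos (inv_pos.2 m0) ?_, ?_⟩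
  · have a := ((k c (Finset.mem_singleton_self _)).resolve_left (mul_ne_zero u.1 c0)) R
    have b : (R.ord c : ℝ) < 0 := Int.cast_lt_zero.2 (not_le.1 fun e =>
      hc' ((ord_nonneg_iff _ c0).1 e))
    rw [dv_mul u.1 c0] at a
    simp only [Pi.add_apply, Pi.zero_apply, dv_apply] at a ⊢
    linarith
  · exact mul_eq_zero_of_right _ u.2.2

theorem big_res (hR : RES) (hK : FF K (n + 1)) {Λ : BD K} (hΛ : Smp Λ) {ε : ℝ} (hε : 0 < ε)
    (h : Smp (mx s - ε • Λ)) (hQ : On n Λ Q) : Big (mx (Q.rs s)) := by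
  have a := (hR.on n K hK Λ Q hΛ).1 hQ
  have b := hR.nef n K hK Q _ h.nef
  have c := hR.add n K hK Q _ (Submodule.smul_mem _ ε hΛ.car) _ h.car
  rw [add_sub_cancel, hR.sys n K hK, hR.smul n K hK Q ε _ hΛ.car] at c
  rw [c]; exact (a.smul hε).add_nef b

theorem lo_of (hB : BALG) (hF : FFS) (hR : RES) (hK : FF K (n + 1)) (hs : Nz s) {Λ : BD K}
    (hΛ : Smp Λ) (hb : Big Λ) {ε : ℝ} (hε : 0 < ε) (h : Smp (mx s - ε • Λ)) (hQ : On n Λ Q) :
    Lo s Q := fun _ hh =>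
  loq (by rw [hF.trdeg _ K hK]; exact Cardinal.natCast_lt_aleph0) hs
    (hB _ K hK s (by simpa using (hb.smul hε).add_smp h))
    (hB n Q.κ (hF.rsd n K hK Q) _ (big_res hR hK hΛ hε h hQ)) hh

/-- **SEP** -/
def SEP : Prop := ForS fun n K _ _ => ∀ (Λ : BD K) (Q R : Pl K), Smp Λ → Big Λ → On n Λ Q →
  (R ≠ Q → ∃ G, Rep Λ G ∧ 0 < G R ∧ G Q = 0) ∧ (CLe Λ Q R → R = Q)

theorem sep_of (hB : BALG) (hF : FFS) (hR : RES) : SEP := fun n K _ _ hK Λ Q R hΛ hb hQ => by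
  have k : R ≠ Q → ∃ G, Rep Λ G ∧ 0 < G R ∧ G Q = 0 := fun hne => by
    obtain ⟨s, ε, hs, hε, h1, h2⟩ := hΛ.exists_mx
    obtain ⟨G, r, a, b⟩ := (lo_of hB hF hR hK hs hΛ hb hε h2 hQ).sep hs hne
    obtain ⟨G', r', c⟩ := h1.exists_rep (finite_singleton Q)
    have := r'.add (r.smul hε.le)
    rw [sub_add_cancel] at this
    refine ⟨_, this, add_pos_of_nonneg_of_pos (r'.nonneg R) (mul_pos hε a), ?_⟩
    simp [c Q rfl, b]
  refine ⟨k, fun h => by_contra fun hne => ?_⟩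
  obtain ⟨G, r, a, b⟩ := k hne
  exact (h G r a).ne' b

end Vale.Agent.P287D.Loq
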