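import Vale.Agent.P287D.Defs

/-!
# P287D, block ADJ: adjunction to a prime divisor (definition and statements)
-/

open Set
open Vale.Agent.P285N.Brep (jac Fr)

noncomputable section

namespace Vale.Agent.P287D

variable {K : Type} [Field K] [Algebra ℂ K]

/-- `j`, `j'` compare the canonical b-divisors of `K` and of the residue field with a form that
has a simple pole along `P` and its residue -/
def AdjD (n : ℕ) (P : Pl K) (j : K) (j' : P.κ) : Prop :=
  j ≠ 0 ∧ j' ≠ 0 ∧ ∃ (g : Fin (n + 1) → K) (D : Fin (n + 1) → Derivation ℂ K K)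
    (D' : Fin n → Derivation ℂ P.κ P.κ), Fr g D ∧ g 0 = P.t ∧ (∀ i : Fin n, g i.succ ∈ P.ring) ∧
    Fr (fun i : Fin n => P.rd (g i.succ)) D' ∧ kap g = cn K (n + 1) + dv j ∧
    kap (fun i : Fin n => P.rd (g i.succ)) = cn P.κ n + dv j'

open Classical in
/-- the log canonical b-divisor induced on `P` by the log canonical b-divisor `Γ` -/
def adj (n : ℕ) (P : Pl K) (Γ : BD K) : BD P.κ :=
  if h : ∃ q : K × P.κ, AdjD n P q.1 q.2 then res P (Γ + dv h.choose.1) - dv h.choose.2 else 0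

/-- the place `R` of `K` follows the place `Q` of the residue field of `P` for the family `T` -/
def Fol (P : Pl K) (Q : Pl P.κ) (T : Set (BD K)) (R : Pl K) : Prop :=
  R ≠ P ∧ ∀ β ∈ T, β R = res P β Q + β P * R.ord P.t

/-- a statement for all prime divisors of function fields of dimension `n + 1` -/
def ForP (A : ∀ (_ : ℕ) (K : Type) [Field K] [Algebra ℂ K], Pl K → Prop) : Prop :=
  ∀ (n : ℕ) (K : Type) [Field K] [Algebra ℂ K], FF K (n + 1) → ∀ P : Pl K, A n K P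

/-- **A0**: the data exist -/
def A0 : Prop := ForP fun n _ _ _ P => ∃ j j', AdjD n P j j'

/-- **A1**: the class of the adjoint -/
def A1 : Prop := ForP fun n K _ _ P => ∀ Γ ∈ Car K, adj n P Γ ∈ Car P.κ ∧
  adj n P Γ - res P Γ ∈ Prn P.κ ∧ (Γ ∈ CarZ K → adj n P Γ ∈ CarZ P.κ)

/-- **A4**: adding a Cartier divisor -/
def A4 : Prop := ForP fun n K _ _ P => ∀ Γ ∈ Car K, ∀ G ∈ Car K,
  adj n P (Γ + G) = adj n P Γ + res P G ∧ (0 ≤ G → G P = 0 → 0 ≤ res P G)

/-- **A2**: every place of the residue field is followed by a place of `K` with the same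
discrepancy, far out, and with its centre in the centre of `P` -/
def A2 : Prop := ForP fun n K _ _ P => ∀ (Q : Pl P.κ) (T : Set (BD K)) (Λ : BD K) (a : ℤ),
  T.Finite → T ⊆ Car K → Λ ∈ Car K → ∃ R, Fol P Q T R ∧ a ≤ R.ord P.t ∧ CLe Λ R P ∧
    (∀ G, Rep Λ G → G P = 0 → G R ≤ res P G Q ∧ (0 < res P G Q → 0 < G R)) ∧
    ∀ Γ ∈ T, dsc n (adj n P Γ) Q + (dsc (n + 1) Γ P + 1) * R.ord P.t = dsc (n + 1) Γ R

/-- **A2L**: adjunction of singularities -/
def A2L : Prop := ForP fun n K _ _ P => ∀ Γ ∈ Car K, dsc (n + 1) Γ P = -1 →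
  (∀ Q, ∃ R, R ≠ P ∧ dsc n (adj n P Γ) Q = dsc (n + 1) Γ R) ∧
  (Lc (n + 1) Γ → Lc n (adj n P Γ)) ∧
  ((∀ R, R ≠ P → -1 < dsc (n + 1) Γ R) → Klt n (adj n P Γ)) ∧
  ∀ Λ ∈ Car K, (∀ R, R ≠ P → CLe Λ R P → -1 < dsc (n + 1) Γ R) → Klt n (adj n P Γ)

end Vale.Agent.P287D
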