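import Vale.Agent.P287D.Ad.Sep
import Vale.Agent.P287D.Ku.St
import Vale.Agent.P287D.Gs.Bas

/-!
# P287D, block ADJ: the different is effective, its coefficients, inversion of adjunction
-/

open Set
open Vale.Agent.P297Z.Pl

noncomputable section

namespace Vale.Agent.P287D

/-- **LRC1**: the round up of the discrepancies is bounded below by an integral Cartier
b-divisor, with equality at a given place -/
def LRC1 : Prop := ForK fun n K _ _ => ∀ Γ ∈ Car K, ∀ Q : Pl K, ∃ β ∈ CarZ K,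
  (∀ R, β R ≤ ⌈dsc n Γ R⌉) ∧ β Q = ⌈dsc n Γ Q⌉

/-- a statement for all prime divisors `P` of `V Λ`, of dimension `n + 2` -/
def ForO (A : ∀ (_ : ℕ) (K : Type) [Field K] [Algebra ℂ K], BD K → Pl K → Prop) : Prop :=
  ∀ (n : ℕ) (K : Type) [Field K] [Algebra ℂ K], FF K (n + 2) → ∀ (Λ : BD K) (P : Pl K), Smp Λ →
    Big Λ → On (n + 1) Λ P → A n K Λ P

/-- **A3**: the different is effective -/
def A3 : Prop := ForO fun n _ _ _ Λ P => ∀ Γ, Dsc Λ Γ → Bdy (n + 1) Λ Γ →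
  dsc (n + 2) Γ P = -1 → Bdy n (res P Λ) (adj (n + 1) P Γ)

/-- **A5**: inversion of adjunction -/
def A5 : Prop := ForP fun n K _ _ P => ∀ Λ Γ : BD K, Smp Λ → Big Λ → Dsc Λ Γ → Bdy n Λ Γ →
  dsc (n + 1) Γ P = -1 → Klt n (adj n P Γ) → ∀ R, R ≠ P → Meet Λ R P → -1 < dsc (n + 1) Γ R

/-- **A6**: the coefficient of the different of a pair `(V, P)` at a prime `Q` of `P` where the
pair is plt is `1 - 1 / r`; integral Weil divisors meet `P` in `Q` with a multiplicity in `ℤ / r`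
and are Cartier at `Q` if it is an integer -/
def A6 : Prop := ForO fun n K _ _ Λ P => ∀ Γ, Hull (n + 1) Λ (cn K (n + 2) + P.δ) Γ →
  ∀ Q, On n (res P Λ) Q → -1 < dsc (n + 1) (adj (n + 1) P Γ) Q →
    ∃ r : ℕ, 0 < r ∧ dsc (n + 1) (adj (n + 1) P Γ) Q = -(1 - 1 / (r : ℝ)) ∧
      ∀ β, Dsc Λ β → (∀ R, On (n + 1) Λ R → ∃ z : ℤ, β R = z) → (∃ k : ℤ, res P β Q = k / r) ∧
        ((∃ k : ℤ, res P β Q = k) → ∃ γ ∈ CarZ K, Dsc Λ γ ∧ γ ≤ β ∧ γ P = β P ∧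
          res P γ Q = res P β Q)

/-- the rows which are used -/
structure AdH : Prop where
  balg : Loq.BALG
  ffs : FFS
  res : RES
  neg : ForS fun n K _ _ => ∀ Λ β : BD K, Smp Λ → Big Λ → Dsc Λ β →
    (∀ P, On n Λ P → 0 ≤ β P) → 0 ≤ β
  isz : ForS fun n K _ _ => IsZ (cn K (n + 1))
  ext : EXTU
  lrc : LRC1
  a1 : A1
  a4 : A4

namespace Ae

open Loq

variable {K : Type} [Field K] [Algebra ℂ K] {n : ℕ} {Λ β γ Γ : BD K} {P : Pl K} {s : Finset K}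

theorem res_zero (hR : RES) (hK : FF K (n + 1)) : res P (0 : BD K) = 0 := by
  simpa using hR.smul n K hK P 0 0 (zero_mem _)

theorem res_sub (hR : RES) (hK : FF K (n + 1)) (h : β ∈ Car K) (h' : γ ∈ Car K) :
    res P (β - γ) = res P β - res P γ := by
  have a := hR.add n K hK P _ (sub_mem h h') _ h'
  rw [sub_add_cancel] at a
  rw [a, add_sub_cancel_right]

theorem res_smp (hR : RES) (hK : FF K (n + 1)) (h : Smp β) : Smp (res P β) :=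
  h.ind (p := fun β => Smp (res P β)) (fun s _ => by rw [hR.sys n K hK]; exact smp_mx _)
    (fun a b ha hb h h' => by rw [hR.add n K hK P a ha.car b hb.car]; exact h.add h')
    fun c a hc ha h => by rw [hR.smul n K hK P c a ha.car]; exact h.smul hc

theorem rd_one (P : Pl K) : P.rd 1 = 1 :=
  (rd_res P.ring.one_mem).trans (map_one (IsLocalRing.residue P.ring))

theorem rd_zero (P : Pl K) : P.rd 0 = 0 :=
  (rd_res P.ring.zero_mem).trans (map_zero (IsLocalRing.residue P.ring))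

theorem rd_sub {f g : K} (h : f ∈ P.ring) (h' : g ∈ P.ring) : P.rd (f - g) = P.rd f - P.rd g :=
  (rd_res (sub_mem h h')).trans ((map_sub (IsLocalRing.residue P.ring) ⟨f, h⟩ ⟨g, h'⟩).trans
    (congrArg₂ (· - ·) (rd_res h).symm (rd_res h').symm))

theorem res_t (hR : RES) (hK : FF K (n + 1)) : res P (dv P.t) = 0 := by
  rw [hR.pri n K hK P _ P.t_ne, P.ord_t, zpow_one, div_self P.t_ne, rd_one, dv_one]

theorem res_dv (hR : RES) (hK : FF K (n + 1)) {f : K} {k : ℤ} (f0 : f ≠ 0) (h : P.ord f = -k) :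
    res P (dv f) = dv (P.rd (f * P.t ^ k)) := by
  rw [hR.pri n K hK P _ f0, h, zpow_neg, div_inv_eq_mul]

theorem nz_rs (hs : Nz s) : Nz (P.rs s) := by
  classical
  obtain ⟨g, hg, g0, e⟩ := P.exists_mz hs
  exact ⟨_, Finset.mem_image_of_mem _ hg, rd_ne (mul_ne_zero g0 (zpow_ne_zero _ P.t_ne))
    (by rw [P.ord_mul_t g0, e, add_neg_cancel])⟩

/-- an integral class which defines `V Λ` -/
theorem setup (hΛ : Smp Λ) (hb : Big Λ) (hΓ : Dsc Λ Γ) : ∃ (s : Finset K) (ε : ℝ) (m₀ : ℕ), Nz s ∧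
    0 < ε ∧ Smp (Λ - ε • mx s) ∧ Smp (mx s - ε • Λ) ∧ Dsc Λ (mx s) ∧ ∀ m : ℕ, m₀ ≤ m →
      Nef ((m : ℝ) • mx s - Γ) ∧ Big ((m : ℝ) • mx s - Γ) := by
  obtain ⟨s, ε, hs, hε, h1, h2⟩ := hΛ.exists_mx
  obtain ⟨δ, hδ, -, h3⟩ := hΓ
  obtain ⟨m₀, hm⟩ := exists_nat_gt (δ⁻¹ / ε)
  refine ⟨s, ε, m₀, hs, hε, h1, h2, ⟨ε, hε, hΛ.add ((smp_mx s).smul hε.le), h1⟩, fun m h => ?_⟩
  have a : 0 < m * ε - δ⁻¹ := by
    have := (div_lt_iff₀ hε).1 (hm.trans_le (Nat.cast_le.2 h)); linarith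
  have e : (m : ℝ) • mx s - Γ = (m * ε - δ⁻¹) • Λ + ((m : ℝ) • (mx s - ε • Λ) +
      δ⁻¹ • (Λ - δ • Γ)) := by
    rw [smul_sub δ⁻¹, smul_smul, inv_mul_cancel₀ hδ.ne']; module
  have b := (h2.smul (Nat.cast_nonneg m)).add (h3.smul (inv_pos.2 hδ).le)
  rw [e]
  exact ⟨((hΛ.smul a.le).add b).nef, (hb.smul a).add_smp b⟩

theorem cle_dsc (h : Dsc Λ β) (h0 : 0 ≤ β) {R R₀ : Pl K} (c : CLe Λ R₀ R) (hR : 0 < β R) :
    0 < β R₀ := by
  obtain ⟨ε, hε, -, h1⟩ := h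
  obtain ⟨G, r, e⟩ := h1.exists_rep (finite_singleton R₀)
  have a := r.add ((Rep.refl h0).smul hε.le)
  rw [sub_add_cancel] at a
  have := c _ a (add_pos_of_nonneg_of_pos (r.nonneg R) (mul_pos hε hR))
  simp only [Pi.add_apply, e R₀ rfl, zero_add, Pi.smul_apply, smul_eq_mul] at this
  exact (mul_pos_iff_of_pos_left hε).1 this

/-- lifting of sections to `V Λ` -/
theorem lift (h : AdH) (hK : FF K (n + 1)) (hΛ : Smp Λ) (hb : Big Λ) (hΓ : Γ ∈ Car K)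
    (hP : dsc (n + 1) Γ P = -1) (hβ : Dsc Λ β) (h0 : 0 ≤ β P)
    (hle : ∀ R, On n Λ R → R ≠ P → (⌈dsc (n + 1) Γ R⌉ : ℝ) ≤ β R) {L : BD K} (hL : L ∈ CarZ K)
    (hd : Dsc Λ L) {k : ℤ} (hk : L P = k) (hn : Nef (L - Γ)) (hg : Big (L - Γ)) {u : P.κ}
    (u0 : u ≠ 0) (hu : Sec (res P L + fun Q => (⌈dsc n (adj n P Γ) Q⌉ : ℝ)) u) :
    ∃ f : K, f ≠ 0 ∧ 0 ≤ dv f + (β + L) ∧ P.ord f = -k ∧ P.rd (f * P.t ^ k) = u ∧
      ∀ R, R ≠ P → 0 ≤ (R.ord f : ℝ) + L R + ⌈dsc (n + 1) Γ R⌉ := by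
  obtain ⟨f, hf, e⟩ := h.ext n K hK P Γ L k u hΓ hP hL hk hn hg hu
  have f0 : f ≠ 0 := fun f0 => u0 (by rw [← e, f0, zero_mul, rd_zero])
  obtain ⟨a, b⟩ := hf.resolve_left f0
  have c : 0 ≤ P.ord (f * P.t ^ k) := by
    rw [P.ord_mul_t f0]; rw [hk] at a; exact_mod_cast a
  have g0 := mul_ne_zero f0 (zpow_ne_zero k P.t_ne)
  have d : P.ord (f * P.t ^ k) = 0 := by
    refine le_antisymm (not_lt.1 fun d => u0 ?_) c
    rw [← e, rd_res ((ord_nonneg_iff _ g0).1 c)]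
    exact (IsLocalRing.residue_eq_zero_iff _).2 ((mem_maximalIdeal_iff _ _).2 (Or.inr d))
  rw [P.ord_mul_t f0] at d
  refine ⟨f, f0, h.neg n K hK Λ _ hΛ hb (Gs.dsc_add hΛ (Gs.dsc_prn hΛ (dv_mem_Prn f))
    (Gs.dsc_add hΛ hβ hd)) fun R hR => ?_, by omega, e, b⟩
  simp only [Pi.add_apply, dv_apply]
  by_cases q : R = P
  · subst q; linarith
  · linarith [b R q, hle R hR q]

/-- a section of `β + L` with a prescribed order along `Q` -/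
theorem core (h : AdH) (hK : FF K (n + 2)) (hΛ : Smp Λ) (hb : Big Λ) (hO : On (n + 1) Λ P)
    (hΓ : Dsc Λ Γ) (hP : dsc (n + 2) Γ P = -1) (hβ : Dsc Λ β) (h0 : β P = 0)
    (hle : ∀ R, On (n + 1) Λ R → R ≠ P → (⌈dsc (n + 2) Γ R⌉ : ℝ) ≤ β R) {Q : Pl P.κ}
    (hQ : On n (res P Λ) Q) : ∃ γ ∈ CarZ K, Dsc Λ γ ∧ γ ≤ β ∧ γ P = 0 ∧
      res P γ Q = ⌈dsc (n + 1) (adj (n + 1) P Γ) Q⌉ := by
  have hR := h.res
  have hκ := h.ffs.rsd _ K hK P
  have cΓ := Gs.dsc_car hΛ hΓ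
  obtain ⟨s, ε, m₀, hs, hε, -, h2, hd, hm⟩ := setup hΛ hb hΓ
  have h3 := res_smp (P := P) hR hK h2
  rw [res_sub hR hK (mx_mem_Car s) (Submodule.smul_mem _ _ hΛ.car), hR.sys _ K hK,
    hR.smul _ K hK P ε _ hΛ.car] at h3
  have lo := lo_of h.balg h.ffs hR hκ (nz_rs hs) (res_smp hR hK hΛ)
    ((hR.on _ K hK Λ P hΛ).1 hO) hε h3 hQ
  obtain ⟨b, hb1, hb2, hb3⟩ := h.lrc _ _ hκ _ (h.a1 _ K hK P Γ cΓ).1 Q
  obtain ⟨m, u, hm', u0, hu, e⟩ := lo.pole (nz_rs hs) hb1 m₀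
  have hL : (m : ℝ) • mx s ∈ CarZ K := CarZ.nsmul (mx_mem_CarZ s) m
  have rL : res P ((m : ℝ) • mx s) = (m : ℝ) • mx (P.rs s) := by
    rw [hR.smul _ K hK P _ _ (mx_mem_Car s), hR.sys _ K hK]
  obtain ⟨k, hk⟩ := CarZ.int hL P
  obtain ⟨f, f0, a, o, r, -⟩ := lift h hK hΛ hb cΓ hP hβ h0.ge hle hL (Gs.dsc_smul hΛ _ hd) hk
    (hm m hm').1 (hm m hm').2 u0 (hu.mono fun R => by
      rw [rL]; simp only [Pi.add_apply]; linarith [hb2 R])
  refine ⟨0 - (dv f + (m : ℝ) • mx s), sub_mem (zero_mem _) (add_mem (dv_mem_CarZ f) hL),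
    Gs.dsc_sub hΛ (Gs.dsc_zero hΛ) (Gs.dsc_add hΛ (Gs.dsc_prn hΛ (dv_mem_Prn f))
      (Gs.dsc_smul hΛ _ hd)), fun R => ?_, ?_, ?_⟩
  · have := a R
    simp only [Pi.add_apply, Pi.sub_apply, Pi.zero_apply] at this ⊢
    linarith
  · rw [Pi.sub_apply, Pi.add_apply, hk, dv_apply, o]; simp
  · rw [res_sub hR hK (zero_mem _) (add_mem (dv_mem_Car f) (CarZ.car hL)), res_zero hR hK,
      hR.add _ K hK P _ (dv_mem_Car f) _ (CarZ.car hL), res_dv hR hK f0 o, r, rL, ← hb3]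
    simp only [Pi.add_apply, Pi.sub_apply, Pi.zero_apply] at e ⊢
    linarith

theorem res_mono (hR : RES) (hK : FF K (n + 1)) (h : β ∈ Car K) (h' : γ ∈ Car K) (e : γ ≤ β)
    (e' : γ P = β P) : res P γ ≤ res P β := by
  have := hR.nn n K hK P _ (sub_mem h h') (sub_nonneg.2 e) (by rw [Pi.sub_apply, e', sub_self])
  rwa [res_sub hR hK h h', sub_nonneg] at this

/-- the general form of the effectivity of the different -/
theorem ceil_le (h : AdH) (hK : FF K (n + 2)) (hΛ : Smp Λ) (hb : Big Λ) (hO : On (n + 1) Λ P)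
    (hΓ : Dsc Λ Γ) (hP : dsc (n + 2) Γ P = -1) (hβ : Dsc Λ β) (h0 : β P = 0)
    (hle : ∀ R, On (n + 1) Λ R → R ≠ P → (⌈dsc (n + 2) Γ R⌉ : ℝ) ≤ β R) {Q : Pl P.κ}
    (hQ : On n (res P Λ) Q) : (⌈dsc (n + 1) (adj (n + 1) P Γ) Q⌉ : ℝ) ≤ res P β Q := by
  obtain ⟨γ, a, -, b, c, d⟩ := core h hK hΛ hb hO hΓ hP hβ h0 hle hQ
  rw [← d]
  exact res_mono h.res hK (Gs.dsc_car hΛ hβ) (CarZ.car a) b (c.trans h0.symm) Q

theorem ceil_np {x : ℝ} (h : x ≤ 0) : (⌈x⌉ : ℝ) ≤ 0 := by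
  exact_mod_cast Int.ceil_le.2 (show x ≤ ((0 : ℤ) : ℝ) by simpa using h)

theorem cyc (G : AddSubgroup ℝ) {c : ℝ} (h1 : (1 : ℝ) ∈ G) (hc : c ∈ G) (c1 : c < 1)
    (h : ∀ x ∈ G, (⌈x - c⌉ : ℝ) ≤ x) :
    ∃ r : ℕ, 0 < r ∧ c = 1 - 1 / (r : ℝ) ∧ ∀ x ∈ G, ∃ k : ℤ, x = k / r := by
  have k : ∀ x ∈ G, x < 1 → x ≤ c := fun x hx x1 => by
    have : (⌈x - c⌉ : ℝ) < ((1 : ℤ) : ℝ) := by push_cast; exact (h x hx).trans_lt x1
    have a : ⌈x - c⌉ ≤ 0 := by have := Int.cast_lt.1 this; omega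
    have := Int.ceil_le.1 a
    push_cast at this; linarith
  rcases G.dense_or_cyclic with d | ⟨a, ha⟩
  · obtain ⟨x, hx, x1, x2⟩ := d.exists_between c1
    exact absurd (k x hx x2) (not_le.2 x1)
  have m : ∀ x ∈ G, ∃ z : ℤ, x = z * a := fun x hx => by
    rw [ha, AddSubgroup.mem_closure_singleton] at hx
    obtain ⟨z, hz⟩ := hx
    exact ⟨z, by rw [← hz, zsmul_eq_mul]⟩
  obtain ⟨z, hz⟩ := m 1 h1
  have z0 : z ≠ 0 := fun e => by simp [e] at hz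
  have r0 : 0 < z.natAbs := Int.natAbs_pos.2 z0
  have r1 : (0 : ℝ) < z.natAbs := Nat.cast_pos.2 r0
  have zr : (z : ℝ) * z.sign = z.natAbs := by
    rw [← Int.cast_mul, Int.mul_sign_self]; simp
  have ea : a = z.sign / z.natAbs := by
    rw [eq_div_iff r1.ne', ← zr, ← mul_assoc, mul_comm a, ← hz, one_mul]
  have all : ∀ x ∈ G, ∃ k : ℤ, x = k / (z.natAbs : ℝ) := fun x hx => by
    obtain ⟨w, hw⟩ := m x hx
    exact ⟨w * z.sign, by rw [hw, ea]; push_cast; ring⟩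
  refine ⟨_, r0, le_antisymm ?_ (k _ (sub_mem h1 ?_) (by simpa using r0)), all⟩
  · obtain ⟨w, hw⟩ := all c hc
    have a : (w : ℝ) < (z.natAbs : ℤ) := by
      rw [hw, div_lt_one r1] at c1; simpa using c1
    have b := Int.cast_le (R := ℝ).2 (Int.add_one_le_iff.2 (Int.cast_lt.1 a))
    rw [hw, div_le_iff₀ r1, _root_.sub_mul, one_div_mul_cancel r1.ne']
    rw [Int.cast_add, Int.cast_one, Int.cast_natCast] at b
    linarith
  · have aG : a ∈ G := by rw [ha]; exact AddSubgroup.mem_closure_singleton_self a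
    have : 1 / (z.natAbs : ℝ) = z.sign • a := by
      have : z.sign * z.sign = 1 := by
        rcases lt_or_gt_of_ne z0 with q | q
        · rw [Int.sign_eq_neg_one_of_neg q]; rfl
        · rw [Int.sign_eq_one_of_pos q]; rfl
      rw [ea, zsmul_eq_mul, ← mul_div_assoc, ← Int.cast_mul, this, Int.cast_one]
    rw [this]; exact G.zsmul_mem aG _

end Ae

open Ae Loq

theorem a3_of (h : AdH) : A3 := fun n K _ _ hK Λ P hΛ hb hO Γ hΓ hB hP Q hQ => by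
  have := ceil_le h hK hΛ hb hO hΓ hP (Gs.dsc_zero hΛ) rfl (fun R hR _ => ceil_np (hB R hR)) hQ
  rw [res_zero h.res hK] at this
  exact (Int.le_ceil _).trans this

theorem a5_of (h : AdH) : A5 := fun n K _ _ hK P Λ Γ hΛ hb hΓ hB hP hk R hR ⟨R₀, c, c'⟩ => by
  have hr := h.res
  obtain ⟨s, ε, m, hs, -, -, -, hd, hm⟩ := setup hΛ hb hΓ
  obtain ⟨w, hw, e⟩ := exists_mx_nsmul s m
  have hd' : Dsc Λ (mx w) := e ▸ Gs.dsc_smul hΛ _ hd
  obtain ⟨g, hg, g0, e'⟩ := exists_gen hw (toFinite {P, R₀})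
  have gP : P.ord g = -P.mz w := by
    have := e' P (by simp)
    rw [Pi.add_apply, dv_apply, mx_apply] at this
    exact eq_neg_of_add_eq_zero_left (by exact_mod_cast this)
  have sg := sec_of_span hg
  have g1 := mul_ne_zero g0 (zpow_ne_zero (P.mz w) P.t_ne)
  have g2 : P.ord (g * P.t ^ P.mz w) = 0 := by rw [P.ord_mul_t g0, gP, neg_add_cancel]
  obtain ⟨f, f0, a, o, r, b⟩ := lift (β := 0) h hK hΛ hb (Gs.dsc_car hΛ hΓ) hP (Gs.dsc_zero hΛ)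
    le_rfl (fun R hR _ => ceil_np (hB R hR))
    (mx_mem_CarZ w) hd' (mx_apply w P) (e ▸ (hm m le_rfl).1) (e ▸ (hm m le_rfl).2) (rd_ne g1 g2)
    (Or.inr fun Q => by
      have a := hr.nn n K hK P _ (add_mem (dv_mem_Car g) (mx_mem_Car w)) (sg.resolve_left g0)
        (e' P (by simp)) Q
      rw [hr.add n K hK P _ (dv_mem_Car g) _ (mx_mem_Car w), res_dv hr hK g0 gP] at a
      have b : (0 : ℝ) ≤ ⌈dsc n (adj n P Γ) Q⌉ := by
        exact_mod_cast Int.lt_add_one_iff.1 (sub_lt_iff_lt_add.1 (Int.lt_ceil.2 (by simpa using hk Q)))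
      simp only [Pi.add_apply, Pi.zero_apply] at a ⊢
      linarith)
  rw [zero_add] at a
  have D : ∀ x : K, Dsc Λ (dv x + mx w) := fun x =>
    Gs.dsc_add hΛ (Gs.dsc_prn hΛ (dv_mem_Prn x)) hd'
  by_contra hc
  have p1 : 0 < (dv f + mx w) R₀ := cle_dsc (D f) a c (by
    have : (⌈dsc (n + 1) Γ R⌉ : ℝ) ≤ ((-1 : ℤ) : ℝ) :=
      Int.cast_le.2 (Int.ceil_le.2 (by simpa using hc))
    have := b R hR
    rw [Pi.add_apply, dv_apply]
    push_cast at *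
    linarith)
  have p0 := e' R₀ (by simp)
  by_cases fg : f - g = 0
  · rw [sub_eq_zero.1 fg] at p1; exact p1.ne' p0
  have f1 := mul_ne_zero f0 (zpow_ne_zero (P.mz w) P.t_ne)
  have f2 : P.ord (f * P.t ^ P.mz w) = 0 := by rw [P.ord_mul_t f0, o, neg_add_cancel]
  have m1 := (ord_nonneg_iff _ f1).1 f2.ge
  have m2 := (ord_nonneg_iff _ g1).1 g2.ge
  have s1 : Sec (mx w) (f - g) := by
    rw [sub_eq_add_neg, ← neg_one_smul ℂ g]; exact Sec.add (Or.inr a) (sg.smul _)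
  have p2 : 0 < (dv (f - g) + mx w) R₀ := cle_dsc (D _) (s1.resolve_left fg) c' (by
    have := ord_pos_of_rd (Q := P) (mul_ne_zero fg (zpow_ne_zero (P.mz w) P.t_ne))
      (by rw [_root_.sub_mul]; exact sub_mem m1 m2) (by rw [_root_.sub_mul, rd_sub m1 m2, r, sub_self])
    rw [P.ord_mul_t fg] at this
    rw [Pi.add_apply, dv_apply, mx_apply]; exact_mod_cast this)
  have q := min_ord_le_add R₀.toPlace f0 (neg_ne_zero.2 fg) (by rw [neg_sub, add_sub_cancel]; exact g0)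
  rw [ord_neg, neg_sub, add_sub_cancel] at q
  simp only [Pi.add_apply, dv_apply] at p0 p1 p2
  rcases min_le_iff.1 q with q | q <;> have := Int.cast_le (R := ℝ).2 q <;> linarith

theorem a6_of (h : AdH) : A6 := fun n K _ _ hK Λ P hΛ hb hO Γ hΓ Q hQ hc => by
  have hR := h.res
  have cΓ := Gs.dsc_car hΛ hΓ.1
  have dΓ : ∀ R, On (n + 1) Λ R → dsc (n + 2) Γ R = -P.δ R := fun R hR => by
    rw [dsc, Pi.sub_apply, hΓ.2 R hR, Pi.add_apply]; ring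
  have key : ∀ β, Dsc Λ β → (∀ R, On (n + 1) Λ R → ∃ z : ℤ, β R = z) → ∃ γ ∈ CarZ K, Dsc Λ γ ∧
      γ ≤ β ∧ γ P = β P ∧ res P γ Q = ⌈res P β Q + dsc (n + 1) (adj (n + 1) P Γ) Q⌉ :=
    fun β hβ hz => by
      obtain ⟨k, hk⟩ := hz P hO
      have t1 : (k : ℝ) • dv P.t ∈ CarZ K := CarZ.zsmul (dv_mem_CarZ _) k
      have t2 : Dsc Λ ((k : ℝ) • dv P.t) := Gs.dsc_smul hΛ _ (Gs.dsc_prn hΛ (dv_mem_Prn _))
      have t3 : res P ((k : ℝ) • dv P.t) = 0 := by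
        rw [hR.smul _ K hK P _ _ (dv_mem_Car _), res_t hR hK, smul_zero]
      have t4 : ((k : ℝ) • dv P.t) P = k := by simp [dv_apply, P.ord_t]
      have b1 := Gs.dsc_sub hΛ hβ t2
      have b2 : (β - (k : ℝ) • dv P.t) P = 0 := by rw [Pi.sub_apply, t4, hk, sub_self]
      have b3 : res P (β - (k : ℝ) • dv P.t) = res P β := by
        rw [res_sub hR hK (Gs.dsc_car hΛ hβ) (CarZ.car t1), t3, sub_zero]
      have b4 : ∀ R, On (n + 1) Λ R → ∃ z : ℤ, (β - (k : ℝ) • dv P.t) R = z := fun R hR => by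
        obtain ⟨z, hz⟩ := hz R hR
        obtain ⟨y, hy⟩ := CarZ.int t1 R
        exact ⟨z - y, by rw [Pi.sub_apply, hz, hy, Int.cast_sub]⟩
      generalize hb' : β - (k : ℝ) • dv P.t = b at b1 b2 b3 b4
      have cb := Gs.dsc_car hΛ b1
      have e : ∀ R, dsc (n + 2) (Γ - b) R = dsc (n + 2) Γ R + b R := fun R => by
        simp only [dsc, Pi.sub_apply]; ring
      obtain ⟨γ, g1, g2, g3, g4, g5⟩ := core h hK hΛ hb hO (Gs.dsc_sub hΛ hΓ.1 b1)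
        (by rw [e, dΓ P hO, P.δ_self, b2, add_zero]) b1 b2 (fun R hR q => by
          obtain ⟨z, hz⟩ := b4 R hR
          rw [e, dΓ R hR, Pl.δ_ne q, hz, neg_zero, zero_add, Int.ceil_intCast]) hQ
      have a4 := (h.a4 _ K hK P _ (sub_mem cΓ cb) _ cb).1
      rw [sub_add_cancel] at a4
      refine ⟨γ + (k : ℝ) • dv P.t, add_mem g1 t1, Gs.dsc_add hΛ g2 t2,
        le_sub_iff_add_le.1 (hb' ▸ g3), by rw [Pi.add_apply, g4, t4, hk, zero_add], ?_⟩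
      rw [hR.add _ K hK P _ (CarZ.car g1) _ (CarZ.car t1), t3, add_zero, g5, ← b3]
      congr 2
      simp only [dsc, a4, Pi.sub_apply, Pi.add_apply]; ring
  let G : AddSubgroup ℝ :=
    { carrier := {x | ∃ β, Dsc Λ β ∧ (∀ R, On (n + 1) Λ R → ∃ z : ℤ, β R = z) ∧ res P β Q = x}
      zero_mem' := ⟨0, Gs.dsc_zero hΛ, fun _ _ => ⟨0, by simp⟩, by rw [res_zero hR hK]; rfl⟩
      add_mem' := by
        rintro _ _ ⟨a, a1, a2, rfl⟩ ⟨b, b1, b2, rfl⟩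
        refine ⟨a + b, Gs.dsc_add hΛ a1 b1, fun R hR => ?_, by
          rw [hR.add _ K hK P _ (Gs.dsc_car hΛ a1) _ (Gs.dsc_car hΛ b1)]; rfl⟩
        obtain ⟨z, hz⟩ := a2 R hR
        obtain ⟨y, hy⟩ := b2 R hR
        exact ⟨z + y, by rw [Pi.add_apply, hz, hy, Int.cast_add]⟩
      neg_mem' := by
        rintro _ ⟨a, a1, a2, rfl⟩
        refine ⟨0 - a, Gs.dsc_sub hΛ (Gs.dsc_zero hΛ) a1, fun R hR => ?_, by
          rw [res_sub hR hK (zero_mem _) (Gs.dsc_car hΛ a1), res_zero hR hK, zero_sub]; rfl⟩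
        obtain ⟨z, hz⟩ := a2 R hR
        exact ⟨-z, by rw [zero_sub, Pi.neg_apply, hz, Int.cast_neg]⟩ }
  have h1 : (1 : ℝ) ∈ G := by
    obtain ⟨⟨f, hf⟩, e⟩ := IsLocalRing.residue_surjective (R := P.ring) Q.t
    have e' : P.rd f = Q.t := (rd_res hf).trans e
    have f0 : f ≠ 0 := fun f0 => Q.t_ne (by rw [← e', f0, rd_zero])
    have o : P.ord f = -(0 : ℤ) := le_antisymm (not_lt.1 fun d => Q.t_ne (e.symm.trans
      ((IsLocalRing.residue_eq_zero_iff _).2 ((mem_maximalIdeal_iff _ _).2 (Or.inr d)))))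
      (ord_nonneg_of_mem _ hf)
    refine ⟨dv f, Gs.dsc_prn hΛ (dv_mem_Prn f), fun R _ => int_dv f R, ?_⟩
    rw [res_dv hR hK f0 o, zpow_zero, mul_one, e', dv_apply, Q.ord_t, Int.cast_one]
  have hc' : -dsc (n + 1) (adj (n + 1) P Γ) Q ∈ G := by
    have a4 := (h.a4 _ K hK P 0 (zero_mem _) _ cΓ).1
    rw [zero_add] at a4
    obtain ⟨y, hy⟩ := CarZ.int ((h.a1 _ K hK P 0 (zero_mem _)).2.2 (zero_mem _)) Q
    obtain ⟨z, hz⟩ := h.isz n _ (h.ffs.rsd _ K hK P) Q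
    have : -dsc (n + 1) (adj (n + 1) P Γ) Q = res P Γ Q + (y - z) • (1 : ℝ) := by
      simp only [dsc, a4, Pi.sub_apply, Pi.add_apply, hy, hz, zsmul_eq_mul]; push_cast; ring
    rw [this]
    refine add_mem ⟨Γ, hΓ.1, fun R hR => ?_, rfl⟩ (G.zsmul_mem h1 _)
    obtain ⟨w, hw⟩ := h.isz _ K hK R
    rw [hΓ.2 R hR, Pi.add_apply, hw]
    by_cases q : R = P
    · exact ⟨w + 1, by rw [q, P.δ_self]; simp⟩
    · exact ⟨w, by rw [Pl.δ_ne q, add_zero]⟩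
  obtain ⟨r, r0, e, all⟩ := cyc G h1 hc' (by linarith) (by
    rintro _ ⟨β, b1, b2, rfl⟩
    obtain ⟨γ, g1, -, g3, g4, g5⟩ := key β b1 b2
    rw [sub_neg_eq_add, ← g5]
    exact res_mono hR hK (Gs.dsc_car hΛ b1) (CarZ.car g1) g3 g4 Q)
  refine ⟨r, r0, by linarith, fun β b1 b2 => ⟨all _ ⟨β, b1, b2, rfl⟩, fun ⟨k, hk⟩ => ?_⟩⟩
  obtain ⟨γ, g1, g2, g3, g4, g5⟩ := key β b1 b2
  refine ⟨γ, g1, g2, g3, g4, ?_⟩
  have r1 : 1 / (r : ℝ) ≤ 1 := by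
    rw [div_le_one (Nat.cast_pos.2 r0)]; exact_mod_cast r0
  rw [g5, hk, Int.cast_inj, Int.ceil_eq_iff]
  constructor <;> linarith

end Vale.Agent.P287D
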