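import Vale.Agent.P287D.Ad.Fol
import Vale.Agent.P287D.Cb.Fr

/-!
# P287D, block ADJ: the rows
-/

set_option linter.all false

open Set
open Vale.Agent.P297 (Place)
open Vale.Agent.P297Z
open Vale.Agent.P285N.Brep (jac Fr)
open Vale.Agent.P277Z Vale.Agent.P277Z.FI Vale.Agent.P277Z.F5

noncomputable section

namespace Vale.Agent.P287D.Aj

open Bm Ba

variable {n : ℕ} {K : Type} [Field K] [Algebra ℂ K]

theorem drop' {A B C ι : Type} [CommRing A] [Algebra ℂ A] [Field B] [Algebra ℂ B] [CommRing C]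
    [Algebra ℂ C] (ψ : A →ₐ[ℂ] B) (φ : A →ₐ[ℂ] C) (h : ∀ f, ψ f = 0 → φ f = 0) {z : ι → A}
    (hz : AlgebraicIndependent ℂ fun i => φ (z i)) {b : A} (h0 : ψ b ≠ 0) (hb : φ b = 0) :
    AlgebraicIndependent ℂ fun o : Option ι => ψ (o.elim b z) := by
  have := RingHom.ker_isPrime ψ
  have k := drop (Ideal.Quotient.liftₐ (RingHom.ker ψ) φ h)
    (z := fun i => Ideal.Quotient.mkₐ ℂ _ (z i)) hz (b := Ideal.Quotient.mkₐ ℂ _ b)
    (fun e => h0 (Ideal.Quotient.eq_zero_iff_mem.1 e)) hb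
  exact (congrArg (fun v : Option ι → B => AlgebraicIndependent ℂ v)
    (funext fun o => by cases o <;> rfl)).mp
    (k.map' (f := Ideal.kerLiftAlg ψ) (Ideal.kerLiftAlg_injective ψ))

section cut

variable {M : Mdl (n + 2) 0 K} {P : Pl K} {S : Mdl (n + 1) 0 P.κ} {s : Sub S M P.toPlace}
  {Q : Pl P.κ} {T : Set (Place K)} {R : Pl K} {M₁ : Mdl (n + 2) 0 K} {m : Mod M₁ M}
  {S₁ : Mdl (n + 1) 0 P.κ} {s₁ : Sub S₁ M₁ P.toPlace} {m' : Mod S₁ S} {y : S₁.F}

theorem Cut.rdQ (c : Cut s Q T R M₁ m S₁ s₁ m' y) {f : K} (h : f ∈ M₁.O (ip s₁ y)) :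
    P.rd f ∈ Q.ring := ct_of_on c.onQ _ (c.res ▸ res_O h)

theorem Cut.van (c : Cut s Q T R M₁ m S₁ s₁ m' y) {f : K} (h : f ∈ M₁.O (ip s₁ y))
    (k : R.rd f = 0) : Q.rd (P.rd f) = 0 := by
  have g := eqn_gn c.onR
  have p := ct_of_on (on_ip s₁ y)
  rcases (rd_zero_iff R (g.le f h)).1 k with rfl | k
  · simpa using (rd_zero_iff Q (c.rdQ h)).2 (.inl ((rd_zero_iff P (p _ h)).2 (.inl rfl)))
  have k1 := g.dvd f h k
  have k2 := (rs_single c.rst c.onQ c.ne').symm.trans c.one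
  rw [c.res] at k2
  rw [← div_mul_cancel₀ f (gn_ne g), rd_mul P (p _ k1) (p _ g.mem), rd_mul Q (c.rdQ k1)
    (c.rdQ g.mem), (rd_zero_iff Q (c.rdQ g.mem)).2 (.inr (by
      rw [Int.cast_eq_one.1 k2]; exact one_pos)), mul_zero]

/-- the centre of `R` is the centre of `Q` -/
theorem Cut.key (c : Cut s Q T R M₁ m S₁ s₁ m' y) (hM : M.Proj) (hP : M.Pr P.toPlace)
    (hb : ∀ x, M.Ct x P.toPlace → (∀ f ∈ M.O x, P.rd f ∈ Q.ring) → ∃ z : Fin n → K,
      (∀ i, z i ∈ M.O x) ∧ AlgebraicIndependent ℂ fun i => Q.rd (P.rd (z i)))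
    (ht : 0 < R.ord (M.eqn (pt m (ip s₁ y)) P.toPlace)) {e : K}
    (he : e ∈ M.O (pt m (ip s₁ y))) (h : R.rd e ≠ 0) : Q.rd (P.rd e) ≠ 0 := fun h0 => by
  have b := hbir hM c.proj m
  set x := pt m (ip s₁ y)
  have le := (b.le (ip s₁ y) x rfl).1
  have g := eqn_gn (b.on (ip s₁ y) x _ rfl (on_ip s₁ y) hP)
  have r := ct_pt b c.onR
  obtain ⟨z, z1, z2⟩ := hb x g.le fun f hf => c.rdQ (le hf)
  have k : ∀ f ∈ M.O x, P.rd f = 0 → R.rd f = 0 := fun f hf k => by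
    refine (rd_zero_iff R (r f hf)).2 (or_iff_not_imp_left.2 fun f0 => ?_)
    have := Pl.ord_nonneg_of_mem _ (r _ (g.dvd f hf
      (((rd_zero_iff P (g.le f hf)).1 k).resolve_left f0)))
    rw [Pl.ord_div _ f0 (gn_ne g)] at this
    omega
  obtain ⟨u, u1, u2, u3⟩ : ∃ u ∈ M.O x, P.rd u ≠ 0 ∧ R.rd u = 0 := by
    by_contra! a
    refine c.ne' (Pl.eq_of_le' fun f hf => ?_).symm
    obtain ⟨u, u1, u0, u2, u3⟩ := g.loc f hf
    exact inv_mul_cancel_left₀ u0 f ▸ mul_mem ((Pl.ord_eq_zero_iff _ u0).1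
      (ord_lift (r u u1) (a u u1 (rd_ne u0 u2))).2).2 (r _ u3)
  have h1 := drop' (rdh R (M.O x) r) ((rdh Q (rdh P (M.O x) g.le).range (by
      rintro _ ⟨f, rfl⟩; exact c.rdQ (le f.2))).comp (rdh P (M.O x) g.le).rangeRestrict)
    (fun f => c.van (le f.2)) (z := fun i => ⟨z i, z1 i⟩) z2 (b := ⟨e, he⟩) h h0
  have h2 := (drop' (rdh P (M.O x) g.le) (rdh R (M.O x) r) (fun f => k f f.2) h1
    (b := ⟨u, u1⟩) u2 u3).cardinalMk_le_trdeg
  rw [trdeg_κ (ff hM) P] at h2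
  simp only [Cardinal.mk_fintype, Fintype.card_option, Fintype.card_fin, Nat.cast_le] at h2
  omega

theorem Cut.rs_pull (c : Cut s Q T R M₁ m S₁ s₁ m' y) (hM : M.Proj) (hP : M.Pr P.toPlace)
    {D : P277Z.Div K} (h : D P.toPlace = 0) : s₁.rs (M.pull M₁ D) Q.toPlace =
      ∑ R' ∈ D.support, D R' * Q.ord (P.rd (M.eqn (pt m (ip s₁ y)) R')) := by
  have b := hbir hM c.proj m
  have hL := loc c.proj
  have on := b.on (ip s₁ y) (pt m (ip s₁ y)) _ rfl (on_ip s₁ y) hP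
  have ht : M₁.div P.t P.toPlace = 1 := by rw [div_apply hL _ c.prP, P.ord_t, Int.cast_one]
  have h0 : ∀ R' ∈ D.support, P.ord (M.eqn (pt m (ip s₁ y)) R') = 0 := fun R' k => by
    classical
    rw [ord_eqn (loc hM) on, if_neg fun e : R' = P.toPlace => Finsupp.mem_support_iff.1 k (e ▸ h)]
  have h1 := (pull_pr (loc hM) b hP D).trans h
  have h2 : ∀ R' ∈ D.support, M₁.div (M.eqn (pt m (ip s₁ y)) R') P.toPlace = 0 := fun R' k => by
    rw [div_apply hL _ c.prP, h0 R' k, Int.cast_zero]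
  let E := M.pull M₁ D - ∑ R' ∈ D.support, D R' • M₁.div (M.eqn (pt m (ip s₁ y)) R')
  have h3 : ∀ R', M₁.On (ip s₁ y) R' → E R' = 0 := fun R' k => by
    simp only [E, Finsupp.sub_apply, Finsupp.finset_sum_apply, Finsupp.smul_apply, smul_eq_mul,
      pull_on b k, div_apply hL _ ⟨_, k⟩]
    exact sub_self _
  have h4 : s₁.rs E Q.toPlace = 0 := by
    rw [rs_sum c.rst c.onQ (h3 _ (on_ip s₁ y))]
    refine Finset.sum_eq_zero fun R' k => mul_eq_zero_of_right _ (by_contra fun a => ?_)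
    have k' := Finsupp.mem_support_iff.1 k
    exact k' (h3 _ (on_of_rs c.rst c.onQ (fun e => k' (e ▸ h3 _ (on_ip s₁ y))) a))
  rw [← rsn_of_zero c.rst ht (h3 _ (on_ip s₁ y)), map_sub, map_sum, rsn_of_zero c.rst ht h1,
    Finsupp.sub_apply, sub_eq_zero, Finsupp.finset_sum_apply] at h4
  rw [h4]
  exact Finset.sum_congr rfl fun R' k => by
    rw [map_smul, rsn_of_zero c.rst ht (h2 R' k), Finsupp.smul_apply,
      c.rs_div (eqn_ne _ _) (h0 R' k), smul_eq_mul]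

end cut

theorem base (hK : FF K (n + 1)) (P : Pl K) {Λ : BD K} (h : Λ ∈ Car K) :
    ∃ (M : Mdl (n + 1) 0 K) (S : Mdl n 0 P.κ) (s : Sub S M P.toPlace), M.Proj ∧
      M.Snc {P.toPlace} ∧ S.Proj ∧ s.res = P.rd ∧ Ds M Λ := by
  obtain ⟨M, D, h1, h2, h3, -⟩ := com1 hK h
  obtain ⟨M', ⟨m⟩, h4, h5⟩ := plm_snc h1 (finite_singleton P)
  rw [image_singleton] at h5
  obtain ⟨S, s, h6, h7, -⟩ := sub h4 P h5
  exact ⟨M', S, s, h4, h5, h6, h7, Ds.up h1 h4 m ⟨D, h2, h3⟩⟩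

theorem exists_fol (hK : FF K (n + 1)) (P : Pl K) (Q : Pl P.κ) {B : Set (BD K)} (hB : B.Finite)
    (hc : B ⊆ Car K) : ∃ R, Fol P Q B R := by
  cases n with
  | zero => exact (no_pl (ff_κ hK P) Q).elim
  | succ n =>
    obtain ⟨M, S, s, h1, h2, h3, h4, -⟩ := base hK P (zero_mem _)
    obtain ⟨-, R, -, -, -, -, -, -, -, -, -, -, h⟩ := low' h1 h2 s h3 h4 Q finite_empty hB hc 0
    exact ⟨R, h⟩

theorem res_add (hK : FF K (n + 1)) (P : Pl K) {β γ : BD K} (h : β ∈ Car K) (h' : γ ∈ Car K) :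
    res P (β + γ) = res P β + res P γ := funext fun Q => by
  obtain ⟨R, -, k⟩ := exists_fol hK P Q (B := {β, γ, β + γ}) (toFinite _)
    (insert_subset h (insert_subset h' (singleton_subset_iff.2 (add_mem h h'))))
  have k1 := k β (by simp)
  have k2 := k γ (by simp)
  have k3 := k (β + γ) (by simp)
  simp only [Pi.add_apply] at k3 ⊢
  linear_combination k1 + k2 - k3

theorem res_smul (hK : FF K (n + 1)) (P : Pl K) (c : ℝ) {β : BD K} (h : β ∈ Car K) :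
    res P (c • β) = c • res P β := funext fun Q => by
  obtain ⟨R, -, k⟩ := exists_fol hK P Q (B := {β, c • β}) (toFinite _)
    (insert_subset h (singleton_subset_iff.2 (Submodule.smul_mem _ c h)))
  have k1 := k β (by simp)
  have k3 := k (c • β) (by simp)
  simp only [Pi.smul_apply, smul_eq_mul] at k3 ⊢
  linear_combination c * k1 - k3

theorem res_nonneg (hK : FF K (n + 1)) (P : Pl K) {β : BD K} (h : β ∈ Car K) (h0 : 0 ≤ β)
    (h1 : β P = 0) : 0 ≤ res P β := fun Q => by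
  obtain ⟨R, -, k⟩ := exists_fol hK P Q (finite_singleton β) (singleton_subset_iff.2 h)
  have k1 := k β rfl
  rw [h1, zero_mul, add_zero] at k1
  exact k1 ▸ h0 R

theorem res_car (P : Pl K) (β : BD K) : res P β ∈ Car P.κ := by
  unfold res
  split_ifs
  · exact sum_mem fun _ _ => Submodule.smul_mem _ _ (mx_mem_Car _)
  · exact zero_mem _

theorem res_mx (hK : FF K (n + 1)) (P : Pl K) (u : Finset K) : res P (mx u) = mx (P.rs u) :=
  funext fun Q => by
  cases n with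
  | zero => exact (no_pl (ff_κ hK P) Q).elim
  | succ n =>
    obtain ⟨M, S, s, h1, h2, h3, h4, -⟩ := base hK P (zero_mem _)
    obtain ⟨b, hb⟩ := ((u.finite_toSet.prod u.finite_toSet).image
      fun q : K × K => ψ P Q q.1 - ψ P Q q.2).bddAbove
    obtain ⟨T, R, M₁, m, S₁, s₁, m', y, k1, k2, c, k3, -, k4⟩ := low' h1 h2 s h3 h4 Q
      (u.finite_toSet.biUnion fun f _ => (M.div f).support.finite_toSet) (finite_singleton (mx u))
      (singleton_subset_iff.2 (mx_mem_Car u)) b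
    have k := mz_fol (s := u) (fun f hf f0 => c.ord h1 f0 ((subset_biUnion_of_mem
      (u := fun f => ((M.div f).support : Set (Place K))) hf).trans k1) k2)
      fun f hf g hg => (hb ⟨(f, g), ⟨hf, hg⟩, rfl⟩).trans k3
    have k5 := k4 _ rfl
    rw [mx_apply, mx_apply, k] at k5
    push_cast at k5
    exact (add_right_cancel k5).symm

theorem res_dv (hK : FF K (n + 1)) (P : Pl K) {f : K} (h : f ≠ 0) :
    res P (dv f) = dv (P.rd (f / P.t ^ P.ord f)) := by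
  classical
  have e : P.mz {f⁻¹} = P.ord f := Int.cast_injective (α := ℝ) (congrFun (dv_eq_mx f) P).symm
  obtain ⟨k0, k1⟩ := ord_nrm P h
  obtain ⟨k2, k3⟩ := (Pl.ord_eq_zero_iff _ k0).1 k1
  rw [dv_eq_mx, res_mx hK, dv_eq_mx, Pl.rs, Finset.image_singleton, e, ← rd_inv P k2 k3 k0,
    inv_div, div_eq_inv_mul]

theorem res_carZ (hK : FF K (n + 1)) (P : Pl K) {β : BD K} (h : β ∈ CarZ K) :
    res P β ∈ CarZ P.κ := by
  obtain ⟨s, u, -, -, rfl⟩ := mem_CarZ.1 h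
  have k := res_add hK P (CarZ.car h) (mx_mem_Car u)
  rw [sub_add_cancel, res_mx hK, res_mx hK] at k
  exact eq_sub_of_add_eq k.symm ▸ sub_mem (mx_mem_CarZ _) (mx_mem_CarZ _)

/-- the restriction on a model -/
theorem res_bar {M : Mdl (n + 1) 0 K} (hM : M.Proj) {P : Pl K} (hP : M.Snc {P.toPlace})
    {S : Mdl n 0 P.κ} (s : Sub S M P.toPlace) (hS : S.Proj) (hs : s.res = P.rd)
    {D : P277Z.Div K} (h : D P.toPlace = 0) : res P (bar M D) = bar S (s.rs D) := by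
  cases n with
  | zero => exact funext fun Q => (no_pl (ff hS) Q).elim
  | succ n => exact res_bar' hM hP s hS hs h

theorem kap_cn {y : Fin n → K} {D : Fin n → Derivation ℂ K K} (h : Fr y D) :
    ∃ j, j ≠ 0 ∧ kap y = cn K n + dv j :=
  ⟨_, inv_ne_zero (cn_frame h).1, by rw [dv_inv, (cn_frame h).2, add_neg_cancel_right]⟩

end Aj

open Aj Bm Ba

theorem a0 : A0 := fun n K _ _ hK P => by
  obtain ⟨y, y1, y2⟩ := exists_basis hK P
  let A : Subalgebra ℂ K := { P.ring.toSubring with algebraMap_mem' := P.con }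
  have t1 : P.t ∈ P.ring := (Pl.ord_nonneg_iff _ P.t_ne).1 (P.ord_t ▸ zero_le_one)
  have h := drop' A.val (rdh P A fun _ h => h)
    (fun f e => (rd_zero_iff P f.2).2 (.inl e)) (z := fun i => ⟨y i, y1 i⟩) y2.1 (b := ⟨P.t, t1⟩)
    P.t_ne ((rd_zero_iff P t1).2 (.inr (P.ord_t ▸ one_pos)))
  have h' : AlgebraicIndependent ℂ (Fin.cons P.t y : Fin (n + 1) → K) :=
    (congrArg (fun v : Fin (n + 1) → K => AlgebraicIndependent ℂ v) (funext fun i => by
      refine Fin.cases ?_ (fun i => ?_) i <;> simp)).mp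
      (h.comp _ (finSuccEquiv n).injective)
  obtain ⟨D, hD⟩ := Cb.fr_of hK h'
  obtain ⟨D', hD'⟩ := Cb.fr_of (ff_κ hK P) y2.1
  obtain ⟨j, j0, hj⟩ := kap_cn hD
  obtain ⟨j', j0', hj'⟩ := kap_cn hD'
  exact ⟨j, j', j0, j0', _, D, D', hD, rfl, y1, hD', hj, hj'⟩

theorem adj_eq {n : ℕ} {K : Type} [Field K] [Algebra ℂ K] (hK : FF K (n + 1)) (P : Pl K) :
    ∃ j j', AdjD n P j j' ∧ ∀ Γ, adj n P Γ = res P (Γ + dv j) - dv j' :=
  have h : ∃ q : K × P.κ, AdjD n P q.1 q.2 := let ⟨j, j', h⟩ := a0 n K hK P; ⟨(j, j'), h⟩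
  ⟨_, _, h.choose_spec, fun _ => dif_pos h⟩

theorem a1 : A1 := fun n K _ _ hK P Γ h => by
  obtain ⟨j, j', ⟨j0, -, -⟩, e⟩ := adj_eq hK P
  rw [e]
  refine ⟨sub_mem (res_car P _) (dv_mem_Car _), ?_,
    fun k => sub_mem (res_carZ hK P (add_mem k (dv_mem_CarZ _))) (dv_mem_CarZ _)⟩
  rw [res_add hK P h (dv_mem_Car j), res_dv hK P j0, sub_right_comm, add_sub_cancel_left]
  exact sub_mem (dv_mem_Prn _) (dv_mem_Prn _)

theorem a4 : A4 := fun n K _ _ hK P Γ h G h' => by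
  obtain ⟨j, j', -, e⟩ := adj_eq hK P
  refine ⟨?_, res_nonneg hK P h'⟩
  rw [e, e, add_right_comm, res_add hK P (add_mem h (dv_mem_Car j)) h', sub_add_eq_add_sub]

theorem a2 : A2 := fun n K _ _ hK P Q T Λ a hT hc hΛ => by
  cases n with
  | zero => exact (no_pl (ff_κ hK P) Q).elim
  | succ n =>
    obtain ⟨j, j', ⟨-, -, g, D, D', g1, g2, g3, g4, g5, g6⟩, e⟩ := adj_eq hK P
    obtain ⟨M₀, S₀, s₀, h1, h2, h3, h4, h5⟩ := base hK P hΛ
    obtain ⟨_, M, m₀, S, s, _, _, c₀, -⟩ := low h1 h2 s₀ h3 h4 Q finite_empty 0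
    have hM := c₀.proj
    have hP := c₀.prP
    obtain ⟨L, -, rfl⟩ := h5.up h1 hM m₀
    obtain ⟨κ, hκ⟩ := exists_can hM g1
    obtain ⟨T', R, M₁, m, S₁, s₁, m', y, k1, k2, c, k3, k4, k5⟩ := low' hM c₀.snc s c₀.proj'
      c₀.res Q κ.support.finite_toSet
      (B := insert (bar M (Finsupp.single P.toPlace 1)) (T ∪ (· + dv j) '' T))
      ((hT.union (hT.image _)).insert _) (insert_subset (bar_car hM _) (union_subset hc
        (forall_mem_image.2 fun _ h => add_mem (hc h) (dv_mem_Car j))))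
      (max a (⌈-res P (bar M (Finsupp.single P.toPlace 1)) Q⌉ + 1))
    have b := hbir hM c.proj m
    have p : 0 < bar M (Finsupp.single P.toPlace 1) R := by
      have i := Int.cast_le (R := ℝ).2 ((le_max_right _ _).trans k3)
      rw [k5 _ (mem_insert _ _), bar_pr hM hP, Finsupp.single_eq_same]
      push_cast at i
      linarith [Int.le_ceil (-res P (bar M (Finsupp.single P.toPlace 1)) Q)]
    have rep : ∀ G, Rep (bar M L) G → ∃ E : P277Z.Div K, 0 ≤ E ∧ G = bar M E := fun G hG => by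
      obtain ⟨E, -, i⟩ := prn_bar hM hG.2
      have i' : G = bar M (M.tr (L + E)) := by rw [bar_tr hM, map_add, i, add_sub_cancel]
      refine ⟨_, fun R' => ?_, i'⟩
      by_cases k : M.Pr R'
      · obtain ⟨R', rfl⟩ := pl_of_pr hM k
        exact (hG.1 R').trans_eq ((congrFun i' R').trans (bar_pr hM k _))
      · exact (tr_off k _).ge
    refine ⟨R, ⟨k4, fun β h => k5 β (.inr (.inl h))⟩, (le_max_left _ _).trans k3,
      fun G hG h => ?_, fun G hG h => ?_, fun Γ h => ?_⟩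
    · obtain ⟨E, e0, rfl⟩ := rep G hG
      rw [bar_pr hM hP] at h
      refine (mul_pos h p).trans_le ?_
      have := bar_mono hM (D := E P.toPlace • Finsupp.single P.toPlace 1) (E := E) (fun R' => by
        by_cases k : R' = P.toPlace
        · simp [k]
        · simpa [Finsupp.single_eq_of_ne k] using e0 R') R
      rwa [map_smul] at this
    · obtain ⟨E, e0, rfl⟩ := rep G hG
      rw [bar_pr hM hP] at h
      rw [res_bar hM c₀.snc s c₀.proj' c₀.res h, ← c.bar_rs c₀.proj' h, c.bar_R hM]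
      refine ⟨le_rs c.rst c.onQ c.one (pull_nonneg b e0) ((pull_pr (loc hM) b hP E).trans h),
        fun k => (pull_nonneg b e0 _).lt_of_ne fun i => k.ne' ?_⟩
      rw [c.bar_R hM, pull_on b c.onR, ordAt_single, one_mul, Int.cast_pos] at p
      rw [c.rs_pull hM hP h]
      refine Finset.sum_eq_zero fun R' k => ?_
      have r := ct_pt b c.onR
      have i1 := (Finset.sum_eq_zero_iff_of_nonneg fun R' _ => mul_nonneg (e0 R') (Int.cast_nonneg
        (Pl.ord_nonneg_of_mem _ (r _ (eqn_mem _ R'))))).1 ((pull_on b c.onR E).symm.trans i.symm) R' k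
      have i2 := c.key hM hP c₀.bas p (eqn_mem _ R') (rd_ne (eqn_ne _ _) (Int.cast_eq_zero.1
        ((mul_eq_zero.1 i1).resolve_left (Finsupp.mem_support_iff.1 k))))
      rw [(ord_lift (c.rdQ ((b.le _ _ rfl).1 (eqn_mem _ R'))) i2).2, Int.cast_zero, mul_zero]
    · obtain ⟨i1, i2⟩ := c.can hM g1 g2 g3 g4 hκ k1 k2
      have i3 := k5 _ (.inr (.inr ⟨Γ, h, rfl⟩))
      rw [g5] at i1 i2
      rw [g6] at i2
      simp only [dsc, e, Pi.sub_apply, Pi.add_apply] at i1 i2 i3 ⊢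
      linear_combination i2 + i3 + (R.ord P.t : ℝ) * i1

/-- **AM**: adjunction on a model -/
theorem adj_bar {n : ℕ} {K : Type} [Field K] [Algebra ℂ K] {M : Mdl (n + 1) 0 K} (hM : M.Proj)
    {P : Pl K} (hP : M.Snc {P.toPlace}) {S : Mdl n 0 P.κ} (s : Sub S M P.toPlace) (hS : S.Proj)
    (hs : s.res = P.rd) {B : P277Z.Div K} (h : B P.toPlace = 0) :
    adj n P (bar M (KM M + Finsupp.single P.toPlace 1 + B)) = bar S (KM S + s.rs B) := by
  obtain ⟨j, j', ⟨-, -, g, D, D', g1, g2, g3, g4, g5, g6⟩, e⟩ := adj_eq (ff hM) P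
  have hR := box.rst _ _ K M hM _ S _ s hP
  have p := hP.1 _ rfl
  obtain ⟨a3, a4⟩ := hR.adj g _ _ (g2 ▸ P.ord_t) g3 (can_of_kap hM g1 g5)
    (hs ▸ can_of_kap hS g4 g6)
  have d0 : (KM M + M.div j + Finsupp.single P.toPlace 1 - M.div (g 0) : P277Z.Div K)
      P.toPlace = 0 := by
    rw [Finsupp.sub_apply, Finsupp.add_apply, a3]
    simp [g2, div_apply (loc hM) _ p, P.ord_t]
  have t0 : P.rd (P.t / P.t ^ P.ord P.t) = 1 := by rw [P.ord_t, zpow_one, div_self P.t_ne, rd_one]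
  rw [e, show bar M (KM M + Finsupp.single P.toPlace 1 + B) + dv j =
      bar M (KM M + M.div j + Finsupp.single P.toPlace 1 - M.div (g 0) + B) + dv P.t by
    rw [← bar_div hM, ← bar_div hM, ← map_add, ← map_add, g2]
    congr 1
    abel, res_add (ff hM) P (bar_car hM _) (dv_mem_Car _), res_dv (ff hM) P P.t_ne, t0, dv_one,
    res_bar hM hP s hS hs (by rw [Finsupp.add_apply, d0, h, add_zero]), rs_add hR d0 h, ← a4,
    ← bar_div hS, add_zero, ← map_sub]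
  congr 1
  abel

theorem a2l : A2L := fun n K _ _ hK P Γ h h1 => by
  have k : ∀ Λ ∈ Car K, ∀ Q, ∃ R, R ≠ P ∧ CLe Λ R P ∧
      dsc n (adj n P Γ) Q = dsc (n + 1) Γ R := fun Λ hΛ Q => by
    obtain ⟨R, a, -, b, -, c⟩ := a2 n K hK P Q {Γ} Λ 0 (finite_singleton Γ)
      (singleton_subset_iff.2 h) hΛ
    exact ⟨R, a.1, b, by simpa [h1] using c Γ rfl⟩
  have k' : ∀ Λ ∈ Car K, (∀ R, R ≠ P → CLe Λ R P → -1 < dsc (n + 1) Γ R) →
      Klt n (adj n P Γ) := fun Λ hΛ i Q => let ⟨R, a, b, c⟩ := k Λ hΛ Q; c ▸ i R a b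
  exact ⟨fun Q => let ⟨R, a, _, c⟩ := k 0 (zero_mem _) Q; ⟨R, a, c⟩,
    fun i Q => let ⟨R, _, _, c⟩ := k 0 (zero_mem _) Q; c ▸ i R,
    fun i => k' 0 (zero_mem _) fun R a _ => i R a, k'⟩

end Vale.Agent.P287D
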