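import Vale.Agent.P287D.Ad.Gen
import Vale.Agent.P287D.Ad.Main
import Vale.Agent.P287D.Va.Alg
import Vale.Agent.P287D.Api.Zar
import Vale.Agent.P287D.Pr.Lr
import Vale.Agent.P287D.Ku.Ex
import Vale.Agent.P287D.Pg.Gr

/-!
# P287D: the adjunction rows, without hypotheses
-/

set_option linter.all false

open Set

noncomputable section

namespace Vale.Agent.P287D

theorem lrc1 : LRC1 := fun n K _ _ hK Γ hΓ Q => by
  cases n with
  | zero => exact (Bm.no_pl hK Q).elim
  | succ n =>
    obtain ⟨β, a, b, c⟩ := Pr.lrc hK hΓ (finite_singleton Q)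
    exact ⟨β, a, b, c Q rfl⟩

theorem adh : AdH where
  balg := balg
  ffs := Api.ffs
  res := res'
  neg := fun n K _ _ hK Λ β a b c d => (Api.neg.nn n K hK Λ β a b c d).1
  isz := fun n K _ _ hK => (Api.mod.isb n K hK).2.2
  ext := Ku.extu
  lrc := lrc1
  a1 := a1
  a4 := a4

theorem a3 : A3 := a3_of adh

theorem a5 : A5 := a5_of adh

theorem a6 : A6 := a6_of adh

theorem a3g : A3G := a3g_of adh

theorem a5g : A5G := a5g_of adh

theorem a7 : A7 := a7_of adh

theorem uni' : UNI := uni_of' Ku.extu res' Api.neg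

end Vale.Agent.P287D
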