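import Vale.Agent.P287D.Ad.Low
import Vale.Agent.P287D.Ad.Df
import Vale.Agent.P287D.Ba.Bar
import Vale.Agent.P287D.Ba.Cn
import Vale.Agent.P287D.Va.Cone

/-!
# P287D, block ADJ: following a place of the residue field
-/

set_option linter.all false

open Set
open Vale.Agent.P297 (Place)
open Vale.Agent.P297Z
open Vale.Agent.P285N.Brep (jac Fr)
open Vale.Agent.P277Z Vale.Agent.P277Z.FI Vale.Agent.P277Z.F5

noncomputable section

namespace Vale.Agent.P287D.Aj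

open Bm Ba

variable {n : ℕ} {K : Type} [Field K] [Algebra ℂ K]

/-- the second order -/
def ψ (P : Pl K) (Q : Pl P.κ) (f : K) : ℤ := Q.ord (P.rd (f / P.t ^ P.ord f))

theorem ord_nrm (P : Pl K) {f : K} (h : f ≠ 0) :
    f / P.t ^ P.ord f ≠ 0 ∧ P.ord (f / P.t ^ P.ord f) = 0 :=
  ⟨div_ne_zero h (zpow_ne_zero _ P.t_ne), by
    rw [Pl.ord_div _ h (zpow_ne_zero _ P.t_ne), P.ord_t_zpow, sub_self]⟩

theorem rd_ne {P : Pl K} {f : K} (h : f ≠ 0) (k : P.ord f = 0) : P.rd f ≠ 0 := fun e => by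
  simpa [h, k] using (rd_zero_iff P ((Pl.ord_nonneg_iff _ h).1 k.ge)).1 e

theorem mz_fol {P R : Pl K} {Q : Pl P.κ} {s : Finset K} {a : ℤ}
    (h : ∀ f ∈ s, f ≠ 0 → R.ord f = ψ P Q f + P.ord f * a)
    (ha : ∀ f ∈ s, ∀ g ∈ s, ψ P Q f - ψ P Q g ≤ a) : R.mz s = Q.mz (P.rs s) + P.mz s * a := by
  classical
  have e1 : ∀ f, f ≠ 0 → P.ord f = -P.mz s → f * P.t ^ P.mz s = f / P.t ^ P.ord f :=
    fun f _ k => by rw [k, zpow_neg, div_inv_eq_mul]
  have e2 : ∀ f ∈ s, P.rd (f * P.t ^ P.mz s) ≠ 0 → f ≠ 0 ∧ P.ord f = -P.mz s := fun f hf k => by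
    obtain ⟨k1, k2⟩ := ord_lift (P.mem_ring_mz (Submodule.subset_span hf)) k
    rw [P.ord_mul_t (left_ne_zero_of_mul k1)] at k2
    exact ⟨left_ne_zero_of_mul k1, by omega⟩
  by_cases hs : Nz s
  · obtain ⟨g, g1, g0, g2⟩ := P.exists_mz hs
    have e3 : ∀ f, f ≠ 0 → P.ord f = -P.mz s → P.rd (f * P.t ^ P.mz s) ≠ 0 := fun f f0 k => by
      rw [e1 f f0 k]
      exact rd_ne (ord_nrm P f0).1 (ord_nrm P f0).2
    obtain ⟨w, w1, f0, f2⟩ := Q.exists_mz (s := P.rs s)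
      ⟨_, Finset.mem_image_of_mem _ g1, e3 g g0 (by omega)⟩
    obtain ⟨f, f1, rfl⟩ := Finset.mem_image.1 w1
    obtain ⟨f3, f4⟩ := e2 f f1 f0
    rw [e1 f f3 f4, ← ψ] at f2
    rw [R.mz_eq f1 f3 fun u u1 u0 => ?_, h f f1 f3, f2, f4]
    · ring
    rw [h f f1 f3, h u u1 u0, f4]
    have k1 := P.le_mz u1 u0
    rcases k1.eq_or_lt with k | k
    · have k2 := Q.le_mz (s := P.rs s) (Finset.mem_image_of_mem _ u1) (e3 u u0 (by omega))
      rw [e1 u u0 (by omega), f2] at k2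
      rw [← k, neg_neg]
      exact add_le_add_left (neg_le_neg_iff.1 k2) _
    · have k2 := ha f f1 u u1
      have k3 := ha f f1 f f1
      rw [sub_self] at k3
      nlinarith [mul_le_mul_of_nonneg_right (show -P.mz s + 1 ≤ P.ord u by omega) k3]
  · rw [R.mz_of_not hs, P.mz_of_not hs, Q.mz_of_not, zero_mul, add_zero]
    rintro ⟨w, w1, f0⟩
    obtain ⟨f, f1, rfl⟩ := Finset.mem_image.1 w1
    exact hs ⟨f, f1, (e2 f f1 f0).1⟩

theorem res_eq (P : Pl K) {β : BD K} (h : β ∈ Car K) :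
    ∃ l, β = cmb l ∧ res P β = l.sum fun s c => c • mx (P.rs s) :=
  ⟨_, (mem_Car.1 h).choose_spec, dif_pos (mem_Car.1 h)⟩

variable {M : Mdl (n + 2) 0 K} {P : Pl K} {S : Mdl (n + 1) 0 P.κ} {s : Sub S M P.toPlace}
  {Q : Pl P.κ} {T : Set (Place K)} {R : Pl K} {M₁ : Mdl (n + 2) 0 K} {m : Mod M₁ M}
  {S₁ : Mdl (n + 1) 0 P.κ} {s₁ : Sub S₁ M₁ P.toPlace} {m' : Mod S₁ S} {y : S₁.F}

theorem Cut.prP (c : Cut s Q T R M₁ m S₁ s₁ m' y) : M₁.Pr P.toPlace := ⟨_, on_ip s₁ y⟩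

theorem Cut.prR (c : Cut s Q T R M₁ m S₁ s₁ m' y) : M₁.Pr R.toPlace := ⟨_, c.onR⟩

theorem Cut.ne' (c : Cut s Q T R M₁ m S₁ s₁ m' y) : R.toPlace ≠ P.toPlace :=
  fun e => c.ne (toPlace_inj e)

theorem Cut.rs_div (c : Cut s Q T R M₁ m S₁ s₁ m' y) {f : K} (h : f ≠ 0) (k : P.ord f = 0) :
    s₁.rs (M₁.div f) Q.toPlace = Q.ord (P.rd f) := by
  rw [c.rst.div f h k, div_apply (loc c.proj') _ ⟨y, c.onQ⟩, c.res]

theorem Cut.ord (c : Cut s Q T R M₁ m S₁ s₁ m' y) (hM : M.Proj) {f : K} (h : f ≠ 0)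
    (h1 : ((M.div f).support : Set (Place K)) ⊆ T) (h2 : ((M.div P.t).support : Set (Place K)) ⊆ T) :
    R.ord f = ψ P Q f + P.ord f * R.ord P.t := by
  obtain ⟨k0, k1⟩ := ord_nrm P h
  have e : ∀ R' : Place K, R'.ord (f / P.t ^ P.ord f) = R'.ord f - P.ord f * R'.ord P.t :=
    fun R' => by rw [Pl.ord_div _ h (zpow_ne_zero _ P.t_ne), Pl.ord_zpow]
  have k := c.eq (M₁.div (f / P.t ^ P.ord f))
    (by rw [div_apply (loc c.proj) _ c.prP, k1, Int.cast_zero]) (FI.dv_div _) fun R' a b => by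
      by_contra d
      have d1 := Finsupp.notMem_support_iff.1 fun i => d (h1 i)
      have d2 := Finsupp.notMem_support_iff.1 fun i => d (h2 i)
      rw [div_apply (loc hM) _ a, Int.cast_eq_zero] at d1 d2
      rw [div_apply (loc c.proj) _ (pr_up hM c.proj m a), e, d1, d2] at b
      simp at b
  rw [c.rs_div k0 k1, div_apply (loc c.proj) _ c.prR, Int.cast_inj, e] at k
  rw [ψ, k, sub_add_cancel]

theorem Cut.can (c : Cut s Q T R M₁ m S₁ s₁ m' y) (hM : M.Proj) {g : Fin (n + 2) → K}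
    {D : Fin (n + 2) → Derivation ℂ K K} {D' : Fin (n + 1) → Derivation ℂ P.κ P.κ} (hg : Fr g D)
    (g0 : g 0 = P.t) (g1 : ∀ i : Fin (n + 1), g i.succ ∈ P.ring)
    (hg' : Fr (fun i : Fin (n + 1) => P.rd (g i.succ)) D') {κ : P277Z.Div K} (hκ : M.Can g κ)
    (h1 : (κ.support : Set (Place K)) ⊆ T) (h2 : ((M.div P.t).support : Set (Place K)) ⊆ T) :
    kap g P = 0 ∧ kap (fun i : Fin (n + 1) => P.rd (g i.succ)) Q = kap g R - R.ord P.t := by
  obtain ⟨κ₁, a1⟩ := exists_can c.proj hg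
  obtain ⟨κ', a2⟩ := exists_can c.proj' hg'
  obtain ⟨a3, a4⟩ := c.rst.adj g κ₁ κ' (g0 ▸ P.ord_t) g1 a1 (c.res ▸ a2)
  refine ⟨(can_kap c.proj a1 c.prP).trans a3, ?_⟩
  have d0 : (κ₁ + Finsupp.single P.toPlace 1 - M₁.div (g 0) : P277Z.Div K) P.toPlace = 0 := by
    simp [a3, g0, div_apply (loc c.proj) _ c.prP, P.ord_t]
  rw [can_kap c.proj' a2 ⟨y, c.onQ⟩, a4, c.eq _ d0
    (dv_sub (dv_add a1.1 (dv_single c.prP 1)) (FI.dv_div _)) fun R' a b => ?_]
  · simp [can_kap c.proj a1 c.prR, g0, div_apply (loc c.proj) _ c.prR,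
      Finsupp.single_eq_of_ne c.ne']
  · by_contra d
    have d1 := Finsupp.notMem_support_iff.1 fun i => d (h1 i)
    have d2 := Finsupp.notMem_support_iff.1 fun i => d (h2 i)
    obtain ⟨R', rfl⟩ := pl_of_pr hM a
    have a' := pr_up hM c.proj m a
    rw [← can_kap hM hκ a, can_kap c.proj a1 a'] at d1
    rw [div_apply (loc hM) _ a, ← div_apply (loc c.proj) _ a'] at d2
    by_cases e : R'.toPlace = P.toPlace
    · exact b (e ▸ d0)
    · simp [d1, d2, g0, Finsupp.single_eq_of_ne e] at b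

/-- the value of an effective divisor is bounded by the value of its restriction -/
theorem Cut.bar_rs (c : Cut s Q T R M₁ m S₁ s₁ m' y) (hS : S.Proj) {D : P277Z.Div K}
    (h : D P.toPlace = 0) : s₁.rs (M.pull M₁ D) Q.toPlace = bar S (s.rs D) Q := by
  rw [c.pull D h, ← bar_pull hS c.proj' m', bar_pr c.proj' ⟨y, c.onQ⟩]

theorem Cut.bar_R (c : Cut s Q T R M₁ m S₁ s₁ m' y) (hM : M.Proj) (D : P277Z.Div K) :
    bar M D R = M.pull M₁ D R.toPlace := by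
  rw [← bar_pull hM c.proj m, bar_pr c.proj c.prR]

theorem low' (hM : M.Proj) (hP : M.Snc {P.toPlace}) (s : Sub S M P.toPlace) (hS : S.Proj)
    (hs : s.res = P.rd) (Q : Pl P.κ) {T : Set (Place K)} (hT : T.Finite) {B : Set (BD K)}
    (hB : B.Finite) (hc : B ⊆ Car K) (a : ℤ) :
    ∃ T' R M₁ m S₁ s₁ m' y, T ⊆ T' ∧ ((M.div P.t).support : Set (Place K)) ⊆ T' ∧
      Cut s Q T' R M₁ m S₁ s₁ m' y ∧ a ≤ R.ord P.t ∧ Fol P Q B R := by
  classical
  choose! l l1 l2 using fun β (h : β ∈ B) => res_eq P (hc h)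
  let F : Set K := ⋃ β ∈ B, ⋃ u ∈ (l β).support, (u : Set K)
  have hF : F.Finite := hB.biUnion fun β _ => (Finset.finite_toSet _).biUnion fun u _ =>
    Finset.finite_toSet u
  obtain ⟨b, hb⟩ := ((hF.prod hF).image fun q : K × K => ψ P Q q.1 - ψ P Q q.2).bddAbove
  obtain ⟨R, M₁, m, S₁, s₁, m', y, c, k⟩ := low hM hP s hS hs Q
    (T := T ∪ (M.div P.t).support ∪ ⋃ f ∈ F, (M.div f).support)
    ((hT.union (Finset.finite_toSet _)).union (hF.biUnion fun _ _ => Finset.finite_toSet _))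
    (max a b).toNat
  have k' := (Int.self_le_toNat _).trans k
  refine ⟨_, R, M₁, m, S₁, s₁, m', y, subset_union_left.trans subset_union_left,
    subset_union_right.trans subset_union_left, c, (le_max_left _ _).trans k', c.ne, fun β h => ?_⟩
  have e : ∀ u ∈ (l β).support, (R.mz u : ℝ) = Q.mz (P.rs u) + P.mz u * R.ord P.t := fun u hu => by
    have i : ∀ f ∈ u, f ∈ F := fun f hf => mem_biUnion h (mem_biUnion hu hf)
    exact_mod_cast mz_fol (fun f hf f0 => c.ord hM f0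
      ((subset_biUnion_of_mem (u := fun f => ((M.div f).support : Set (Place K))) (i f hf)).trans
        subset_union_right) (subset_union_right.trans subset_union_left))
      fun f hf g hg => (hb ⟨(f, g), ⟨i f hf, i g hg⟩, rfl⟩).trans ((le_max_right _ _).trans k')
  rw [l2 β h, congrFun (l1 β h) R, congrFun (l1 β h) P]
  simp only [cmb_sum, Finsupp.sum, Finset.sum_apply, Pi.smul_apply, smul_eq_mul, mx_apply,
    Finset.sum_mul, ← Finset.sum_add_distrib]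
  exact Finset.sum_congr rfl fun u hu => by rw [e u hu]; ring

theorem res_bar' (hM : M.Proj) (hP : M.Snc {P.toPlace}) (s : Sub S M P.toPlace) (hS : S.Proj)
    (hs : s.res = P.rd) {D : P277Z.Div K} (h : D P.toPlace = 0) :
    res P (bar M D) = bar S (s.rs D) := funext fun Q => by
  obtain ⟨T', R, M₁, m, S₁, s₁, m', y, h1, -, c, -, -, h2⟩ := low' hM hP s hS hs Q
    D.support.finite_toSet (finite_singleton (bar M D)) (singleton_subset_iff.2 (bar_car hM D)) 0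
  have b := hbir hM c.proj m
  have k := h2 _ rfl
  rw [bar_pr hM (hP.1 _ rfl), h, zero_mul, add_zero, c.bar_R hM] at k
  rw [← k, ← c.bar_rs hS h, c.eq _ ((pull_pr (loc hM) b (hP.1 _ rfl) D).trans h) (dv_pull D)
    fun R' a e => h1 (Finsupp.mem_support_iff.2 (pull_pr (loc hM) b a D ▸ e))]

end Vale.Agent.P287D.Aj
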