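import Vale.Agent.P287D.Ad.Eff

/-!
# P287D, block ADJ: generalised pairs; locally principal divisors
-/

open Set
open Vale.Agent.P297Z.Pl

noncomputable section

namespace Vale.Agent.P287D

section defs

variable {K : Type} [Field K] [Algebra ℂ K]

/-- `G` is an effective divisor of `V Λ` which does not contain the centre of the place `Q` of
the residue field of `P` -/
structure Off (Λ : BD K) (P : Pl K) (Q : Pl P.κ) (G : BD K) : Prop where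
  nn : 0 ≤ G
  des : Dsc Λ G
  zp : G P = 0
  zq : res P G Q = 0

/-- `β` is principal near the centre of `Q` on `V Λ` -/
def LP (Λ : BD K) (P : Pl K) (Q : Pl P.κ) (β : BD K) : Prop :=
  ∃ (u : K) (G G' : BD K), u ≠ 0 ∧ Off Λ P Q G ∧ Off Λ P Q G' ∧ β + dv u = G - G'

/-- the centre of `Q` on `V Λ` lies in the centre of `R` -/
def Cq (Λ : BD K) (P : Pl K) (Q : Pl P.κ) (R : Pl K) : Prop :=
  ∀ G, Rep Λ G → G P = 0 → 0 < G R → 0 < res P G Q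

end defs

/-- **A3G**: the different of a generalised pair is effective -/
def A3G : Prop := ForO fun n _ _ _ Λ P => ∀ Γ (c : ℝ), Nef (c • Λ - Γ) → Bdy (n + 1) Λ Γ →
  dsc (n + 2) Γ P = -1 → Bdy n (res P Λ) (adj (n + 1) P Γ)

/-- **A5G**: inversion of adjunction for generalised pairs -/
def A5G : Prop := ForP fun n K _ _ P => ∀ (Λ Γ : BD K) (c : ℝ), Smp Λ → Big Λ → Nef (c • Λ - Γ) →
  Bdy n Λ Γ → dsc (n + 1) Γ P = -1 → Klt n (adj n P Γ) →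
    ∀ R, R ≠ P → Meet Λ R P → -1 < dsc (n + 1) Γ R

/-- **A7**: integral Weil divisors with an integral multiplicity at a plt point are principal -/
def A7 : Prop := ForO fun n K _ _ Λ P => ∀ Γ, Hull (n + 1) Λ (cn K (n + 2) + P.δ) Γ →
  ∀ Q, On n (res P Λ) Q → -1 < dsc (n + 1) (adj (n + 1) P Γ) Q →
    ∀ β, Dsc Λ β → (∀ R, On (n + 1) Λ R → ∃ z : ℤ, β R = z) → (∃ k : ℤ, res P β Q = k) →
      LP Λ P Q β

namespace Ae

open Loq

variable {K : Type} [Field K] [Algebra ℂ K] {n : ℕ} {Λ β γ Γ G : BD K} {P : Pl K} {s : Finset K}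
  {Q : Pl P.κ}

theorem car_of_nef (hΛ : Smp Λ) {c : ℝ} (h : Nef (c • Λ - Γ)) : Γ ∈ Car K := by
  simpa using sub_mem (Submodule.smul_mem _ c hΛ.car) h.car

theorem nef_of_dsc (h : Dsc Λ Γ) : ∃ c : ℝ, Nef (c • Λ - Γ) := by
  obtain ⟨δ, hδ, -, h3⟩ := h
  refine ⟨δ⁻¹, ?_⟩
  have := (h3.smul (inv_pos.2 hδ).le).nef
  rwa [smul_sub, smul_smul δ⁻¹ δ, inv_mul_cancel₀ hδ.ne', one_smul] at this

/-- an integral class which defines `V Λ` -/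
theorem setupG (hΛ : Smp Λ) (hb : Big Λ) {c : ℝ} (hΓ : Nef (c • Λ - Γ)) :
    ∃ (s : Finset K) (ε : ℝ) (m₀ : ℕ), Nz s ∧ 0 < ε ∧ Smp (mx s - ε • Λ) ∧ Dsc Λ (mx s) ∧
      ∀ m : ℕ, m₀ ≤ m → Nef ((m : ℝ) • mx s - Γ) ∧ Big ((m : ℝ) • mx s - Γ) := by
  obtain ⟨s, ε, m₀, hs, hε, -, h2, hd, hm⟩ :=
    setup hΛ hb (Gs.dsc_smul hΛ c (Gs.dsc_self hΛ))
  refine ⟨s, ε, m₀, hs, hε, h2, hd, fun m h => ?_⟩
  rw [← sub_add_sub_cancel _ (c • Λ)]
  exact ⟨(hm m h).1.add hΓ, (hm m h).2.add_nef hΓ⟩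

/-- a member of a system which contains neither `P` nor the centre of `Q` -/
theorem exists_mem (hR : RES) (hK : FF K (n + 1)) (hs : Nz s) (P : Pl K) (Q : Pl P.κ) :
    ∃ g ∈ s, g ≠ 0 ∧ (dv g + mx s) P = 0 ∧ res P (dv g + mx s) Q = 0 := by
  classical
  obtain ⟨_, hg', g1, e⟩ := Q.exists_mz (nz_rs (P := P) hs)
  obtain ⟨g, hg, rfl⟩ := Finset.mem_image.1 hg'
  have g0 : g ≠ 0 := fun g0 => g1 (by rw [g0, zero_mul, rd_zero])
  have m := P.mem_ring_mz (Submodule.subset_span hg)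
  have o : P.ord g = -P.mz s := by
    have a : P.ord (g * P.t ^ P.mz s) = 0 := le_antisymm (not_lt.1 fun d => g1 ((rd_res m).trans
      ((IsLocalRing.residue_eq_zero_iff _).2 ((mem_maximalIdeal_iff _ _).2 (Or.inr d)))))
      (ord_nonneg_of_mem _ m)
    rw [P.ord_mul_t g0] at a; omega
  refine ⟨g, hg, g0, by simp [dv_apply, mx_apply, o], ?_⟩
  rw [hR.add n K hK P _ (dv_mem_Car g) _ (mx_mem_Car s), res_dv hR hK g0 o, hR.sys n K hK]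
  simp [dv_apply, mx_apply, e]

theorem exists_rep_res (hR : RES) (hK : FF K (n + 1)) (h : Smp β) (P : Pl K) (Q : Pl P.κ) :
    ∃ G, Rep β G ∧ G P = 0 ∧ res P G Q = 0 :=
  h.ind (p := fun β => ∃ G, Rep β G ∧ G P = 0 ∧ res P G Q = 0)
    (fun s hs => let ⟨g, hg, g0, a, b⟩ := exists_mem hR hK hs P Q
      ⟨_, (sec_of_mem hg).rep g0, a, b⟩)
    (fun a b ha hb ⟨G, r, x, y⟩ ⟨G', r', x', y'⟩ => ⟨_, r.add r', by simp [x, x'], by
      rw [hR.add n K hK P _ (r.car ha.car) _ (r'.car hb.car)]; simp [y, y']⟩)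
    fun c a hc ha ⟨G, r, x, y⟩ => ⟨_, r.smul hc, by simp [x], by
      rw [hR.smul n K hK P _ _ (r.car ha.car)]; simp [y]⟩

theorem off_zero (hR : RES) (hK : FF K (n + 1)) (hΛ : Smp Λ) (h : Off Λ P Q G) {R : Pl K}
    (c : Cq Λ P Q R) : G R = 0 := by
  obtain ⟨ε, hε, -, h1⟩ := h.des
  obtain ⟨G₁, r, x, y⟩ := exists_rep_res hR hK h1 P Q
  have a := r.add ((Rep.refl h.nn).smul hε.le)
  rw [sub_add_cancel] at a
  refine le_antisymm (not_lt.1 fun p => ?_) (h.nn R)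
  have := c _ a (by simp [x, h.zp]) (add_pos_of_nonneg_of_pos (r.nonneg R) (mul_pos hε p))
  have cG := Gs.dsc_car hΛ h.des
  rw [hR.add n K hK P _ (r.car h1.car) _ (Submodule.smul_mem _ _ cG), hR.smul n K hK P _ _ cG] at this
  simp [y, h.zq] at this

/-- a locally principal divisor at the places whose centre contains the centre of `Q` -/
theorem lp_eq (hR : RES) (hK : FF K (n + 1)) (hΛ : Smp Λ) (h : LP Λ P Q β) :
    ∃ u : K, u ≠ 0 ∧ ∀ R, Cq Λ P Q R → (β + dv u) R = 0 := by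
  obtain ⟨u, G, G', u0, a, b, e⟩ := h
  exact ⟨u, u0, fun R c => by
    rw [e, Pi.sub_apply, off_zero hR hK hΛ a c, off_zero hR hK hΛ b c, sub_zero]⟩

/-- a section of `β + L` with a prescribed order along `Q` -/
theorem coreG (h : AdH) (hK : FF K (n + 2)) (hΛ : Smp Λ) (hb : Big Λ) (hO : On (n + 1) Λ P)
    {c : ℝ} (hΓ : Nef (c • Λ - Γ)) (hP : dsc (n + 2) Γ P = -1) (hβ : Dsc Λ β) (h0 : β P = 0)
    (hle : ∀ R, On (n + 1) Λ R → R ≠ P → (⌈dsc (n + 2) Γ R⌉ : ℝ) ≤ β R)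
    (hQ : On n (res P Λ) Q) : ∃ (u : K) (G G' : BD K), u ≠ 0 ∧ 0 ≤ G ∧ Dsc Λ G ∧ G P = 0 ∧
      Off Λ P Q G' ∧ β + dv u = G - G' ∧
      res P G Q = res P β Q - ⌈dsc (n + 1) (adj (n + 1) P Γ) Q⌉ := by
  have hR := h.res
  have hκ := h.ffs.rsd _ K hK P
  have cΓ := car_of_nef hΛ hΓ
  obtain ⟨s, ε, m₀, hs, hε, h2, hd, hm⟩ := setupG hΛ hb hΓ
  have h3 := res_smp (P := P) hR hK h2
  rw [res_sub hR hK (mx_mem_Car s) (Submodule.smul_mem _ _ hΛ.car), hR.sys _ K hK,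
    hR.smul _ K hK P ε _ hΛ.car] at h3
  have lo := lo_of h.balg h.ffs hR hκ (nz_rs hs) (res_smp hR hK hΛ)
    ((hR.on _ K hK Λ P hΛ).1 hO) hε h3 hQ
  obtain ⟨b, hb1, hb2, hb3⟩ := h.lrc _ _ hκ _ (h.a1 _ K hK P Γ cΓ).1 Q
  obtain ⟨m, u, hm', u0, hu, e⟩ := lo.pole (nz_rs hs) hb1 m₀
  have rL : res P ((m : ℝ) • mx s) = (m : ℝ) • mx (P.rs s) := by
    rw [hR.smul _ K hK P _ _ (mx_mem_Car s), hR.sys _ K hK]
  obtain ⟨w, hw, ew⟩ := exists_mx_nsmul s m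
  have hd' : Dsc Λ (mx w) := ew ▸ Gs.dsc_smul hΛ _ hd
  rw [← ew] at rL
  obtain ⟨f, f0, a, o, r, -⟩ := lift h hK hΛ hb cΓ hP hβ h0.ge hle (mx_mem_CarZ w) hd'
    (mx_apply w P) (ew ▸ (hm m hm').1) (ew ▸ (hm m hm').2) u0 (hu.mono fun R => by
      rw [rL]; simp only [Pi.add_apply]; linarith [hb2 R])
  obtain ⟨g, hg, g0, x, y⟩ := exists_mem hR hK hw P Q
  refine ⟨f / g, dv f + (β + mx w), dv g + mx w, div_ne_zero f0 g0, a,
    Gs.dsc_add hΛ (Gs.dsc_prn hΛ (dv_mem_Prn f)) (Gs.dsc_add hΛ hβ hd'), ?_,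
    ⟨dv_add_mx_nonneg hg g0, Gs.dsc_add hΛ (Gs.dsc_prn hΛ (dv_mem_Prn g)) hd', x, y⟩, ?_, ?_⟩
  · simp [dv_apply, mx_apply, o, h0]
  · rw [dv_div f0 g0]; abel
  · have cβ := Gs.dsc_car hΛ hβ
    rw [hR.add _ K hK P _ (dv_mem_Car f) _ (add_mem cβ (mx_mem_Car w)),
      hR.add _ K hK P _ cβ _ (mx_mem_Car w), res_dv hR hK f0 o, r, rL, ← hb3]
    simp only [Pi.add_apply] at e ⊢
    linarith

theorem ceil_leG (h : AdH) (hK : FF K (n + 2)) (hΛ : Smp Λ) (hb : Big Λ) (hO : On (n + 1) Λ P)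
    {c : ℝ} (hΓ : Nef (c • Λ - Γ)) (hP : dsc (n + 2) Γ P = -1) (hβ : Dsc Λ β) (h0 : β P = 0)
    (hle : ∀ R, On (n + 1) Λ R → R ≠ P → (⌈dsc (n + 2) Γ R⌉ : ℝ) ≤ β R)
    (hQ : On n (res P Λ) Q) : (⌈dsc (n + 1) (adj (n + 1) P Γ) Q⌉ : ℝ) ≤ res P β Q := by
  obtain ⟨u, G, G', -, a, b, c, -, -, d⟩ := coreG h hK hΛ hb hO hΓ hP hβ h0 hle hQ
  have := h.res.nn _ K hK P G (Gs.dsc_car hΛ b) a c Q
  rw [d] at this
  exact sub_nonneg.1 this

end Ae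

open Ae Loq

theorem a3g_of (h : AdH) : A3G := fun n K _ _ hK Λ P hΛ hb hO Γ c hΓ hB hP Q hQ => by
  have := ceil_leG h hK hΛ hb hO hΓ hP (Gs.dsc_zero hΛ) rfl (fun R hR _ => ceil_np (hB R hR)) hQ
  rw [res_zero h.res hK] at this
  exact (Int.le_ceil _).trans this

theorem a5g_of (h : AdH) : A5G := fun n K _ _ hK P Λ Γ _ hΛ hb hΓ hB hP hk R hR ⟨R₀, c, c'⟩ => by
  have hr := h.res
  obtain ⟨s, ε, m, hs, -, -, hd, hm⟩ := setupG hΛ hb hΓ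
  obtain ⟨w, hw, e⟩ := exists_mx_nsmul s m
  have hd' : Dsc Λ (mx w) := e ▸ Gs.dsc_smul hΛ _ hd
  obtain ⟨g, hg, g0, e'⟩ := exists_gen hw (toFinite {P, R₀})
  have gP : P.ord g = -P.mz w := by
    have := e' P (by simp)
    rw [Pi.add_apply, dv_apply, mx_apply] at this
    exact eq_neg_of_add_eq_zero_left (by exact_mod_cast this)
  have sg := sec_of_span hg
  have g1 := mul_ne_zero g0 (zpow_ne_zero (P.mz w) P.t_ne)
  have g2 : P.ord (g * P.t ^ P.mz w) = 0 := by rw [P.ord_mul_t g0, gP, neg_add_cancel]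
  obtain ⟨f, f0, a, o, r, b⟩ := lift (β := 0) h hK hΛ hb (car_of_nef hΛ hΓ) hP (Gs.dsc_zero hΛ)
    le_rfl (fun R hR _ => ceil_np (hB R hR))
    (mx_mem_CarZ w) hd' (mx_apply w P) (e ▸ (hm m le_rfl).1) (e ▸ (hm m le_rfl).2) (rd_ne g1 g2)
    (Or.inr fun Q => by
      have a := hr.nn n K hK P _ (add_mem (dv_mem_Car g) (mx_mem_Car w)) (sg.resolve_left g0)
        (e' P (by simp)) Q
      rw [hr.add n K hK P _ (dv_mem_Car g) _ (mx_mem_Car w), res_dv hr hK g0 gP] at a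
      have b : (0 : ℝ) ≤ ⌈dsc n (adj n P Γ) Q⌉ := by
        exact_mod_cast Int.lt_add_one_iff.1 (sub_lt_iff_lt_add.1 (Int.lt_ceil.2 (by simpa using hk Q)))
      simp only [Pi.add_apply, Pi.zero_apply] at a ⊢
      linarith)
  rw [zero_add] at a
  have D : ∀ x : K, Dsc Λ (dv x + mx w) := fun x =>
    Gs.dsc_add hΛ (Gs.dsc_prn hΛ (dv_mem_Prn x)) hd'
  by_contra hc
  have p1 : 0 < (dv f + mx w) R₀ := cle_dsc (D f) a c (by
    have : (⌈dsc (n + 1) Γ R⌉ : ℝ) ≤ ((-1 : ℤ) : ℝ) :=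
      Int.cast_le.2 (Int.ceil_le.2 (by simpa using hc))
    have := b R hR
    rw [Pi.add_apply, dv_apply]
    push_cast at *
    linarith)
  have p0 := e' R₀ (by simp)
  by_cases fg : f - g = 0
  · rw [sub_eq_zero.1 fg] at p1; exact p1.ne' p0
  have f1 := mul_ne_zero f0 (zpow_ne_zero (P.mz w) P.t_ne)
  have f2 : P.ord (f * P.t ^ P.mz w) = 0 := by rw [P.ord_mul_t f0, o, neg_add_cancel]
  have m1 := (ord_nonneg_iff _ f1).1 f2.ge
  have m2 := (ord_nonneg_iff _ g1).1 g2.ge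
  have s1 : Sec (mx w) (f - g) := by
    rw [sub_eq_add_neg, ← neg_one_smul ℂ g]; exact Sec.add (Or.inr a) (sg.smul _)
  have p2 : 0 < (dv (f - g) + mx w) R₀ := cle_dsc (D _) (s1.resolve_left fg) c' (by
    have := ord_pos_of_rd (Q := P) (mul_ne_zero fg (zpow_ne_zero (P.mz w) P.t_ne))
      (by rw [_root_.sub_mul]; exact sub_mem m1 m2)
      (by rw [_root_.sub_mul, rd_sub m1 m2, r, sub_self])
    rw [P.ord_mul_t fg] at this
    rw [Pi.add_apply, dv_apply, mx_apply]; exact_mod_cast this)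
  have q := min_ord_le_add R₀.toPlace f0 (neg_ne_zero.2 fg)
    (by rw [neg_sub, add_sub_cancel]; exact g0)
  rw [ord_neg, neg_sub, add_sub_cancel] at q
  simp only [Pi.add_apply, dv_apply] at p0 p1 p2
  rcases min_le_iff.1 q with q | q <;> have := Int.cast_le (R := ℝ).2 q <;> linarith

theorem a7_of (h : AdH) : A7 := fun n K _ _ hK Λ P hΛ hb hO Γ hΓ Q hQ hc β hβ hz ⟨j, hj⟩ => by
  have hR := h.res
  have cΓ := Gs.dsc_car hΛ hΓ.1
  have dΓ : ∀ R, On (n + 1) Λ R → dsc (n + 2) Γ R = -P.δ R := fun R hR => by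
    rw [dsc, Pi.sub_apply, hΓ.2 R hR, Pi.add_apply]; ring
  have c0 : dsc (n + 1) (adj (n + 1) P Γ) Q ≤ 0 := a3_of h n K hK Λ P hΛ hb hO Γ hΓ.1
    (fun R hR => by rw [dΓ R hR]; exact neg_nonpos.2 (P.δ_nonneg R))
    (by rw [dΓ P hO, P.δ_self]) Q hQ
  obtain ⟨k, hk⟩ := hz P hO
  have t1 : dv (P.t ^ k) ∈ CarZ K := dv_mem_CarZ _
  have t2 : Dsc Λ (dv (P.t ^ k)) := Gs.dsc_prn hΛ (dv_mem_Prn _)
  have t3 : res P (dv (P.t ^ k)) = 0 := by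
    rw [dv_zpow, hR.smul _ K hK P _ _ (dv_mem_Car _), res_t hR hK, smul_zero]
  have b1 := Gs.dsc_sub hΛ hβ t2
  have b2 : (β - dv (P.t ^ k)) P = 0 := by rw [Pi.sub_apply, dv_apply, P.ord_t_zpow, hk, sub_self]
  have b3 : res P (β - dv (P.t ^ k)) = res P β := by
    rw [res_sub hR hK (Gs.dsc_car hΛ hβ) (CarZ.car t1), t3, sub_zero]
  have b4 : ∀ R, On (n + 1) Λ R → ∃ z : ℤ, (β - dv (P.t ^ k)) R = z := fun R hR => by
    obtain ⟨z, hz⟩ := hz R hR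
    obtain ⟨y, hy⟩ := CarZ.int t1 R
    exact ⟨z - y, by rw [Pi.sub_apply, hz, hy, Int.cast_sub]⟩
  generalize hb' : β - dv (P.t ^ k) = b at b1 b2 b3 b4
  have cb := Gs.dsc_car hΛ b1
  have e : ∀ R, dsc (n + 2) (Γ - b) R = dsc (n + 2) Γ R + b R := fun R => by
    simp only [dsc, Pi.sub_apply]; ring
  obtain ⟨c, hc'⟩ := nef_of_dsc (Gs.dsc_sub hΛ hΓ.1 b1)
  obtain ⟨u, G, G', u0, g1, g2, g3, g4, g5, g6⟩ := coreG h hK hΛ hb hO hc'
    (by rw [e, dΓ P hO, P.δ_self, b2, add_zero]) b1 b2 (fun R hR q => by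
      obtain ⟨z, hz⟩ := b4 R hR
      rw [e, dΓ R hR, Pl.δ_ne q, hz, neg_zero, zero_add, Int.ceil_intCast]) hQ
  have a4 := (h.a4 _ K hK P _ (sub_mem cΓ cb) _ cb).1
  rw [sub_add_cancel] at a4
  have e2 : dsc (n + 1) (adj (n + 1) P (Γ - b)) Q = j + dsc (n + 1) (adj (n + 1) P Γ) Q := by
    rw [← hj, ← b3]
    simp only [dsc, a4, Pi.sub_apply, Pi.add_apply]; ring
  refine ⟨u / P.t ^ k, G, G', div_ne_zero u0 (zpow_ne_zero _ P.t_ne), ⟨g1, g2, g3, ?_⟩, g4, ?_⟩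
  · rw [g6, b3, hj, e2, sub_eq_zero, Int.cast_inj, eq_comm, Int.ceil_eq_iff]
    constructor <;> linarith
  · rw [dv_div u0 (zpow_ne_zero _ P.t_ne), ← g5, ← hb']; abel

end Vale.Agent.P287D
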