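import Vale.Agent.P287D.Va.Bas

/-!
# P287D: the ring of a prime divisor of `V β` is a localisation of the ring of sections
-/

open Set Polynomial
open Vale.Agent.P297Z.Pl

noncomputable section

namespace Vale.Agent.P287D.Loq

variable {K : Type} [Field K] [Algebra ℂ K] {β : BD K} {Q : Pl K}

/-- `w` is a section of `m β` which does not vanish at `Q` -/
def Un (β : BD K) (Q : Pl K) (m : ℕ) (w : K) : Prop :=
  w ≠ 0 ∧ Sec ((m : ℝ) • β) w ∧ (Q.ord w : ℝ) + m * β Q = 0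

theorem Un.one : Un β Q 0 1 := ⟨one_ne_zero, by simp [sec_one], by simp⟩

theorem sec_mul {m m' : ℕ} {a b : K} (h : Sec ((m : ℝ) • β) a) (h' : Sec ((m' : ℝ) • β) b) :
    Sec (((m + m' : ℕ) : ℝ) • β) (a * b) := by
  rw [Nat.cast_add, add_smul]; exact h.mul h'

theorem Un.mul {m m' : ℕ} {w w' : K} (h : Un β Q m w) (h' : Un β Q m' w') :
    Un β Q (m + m') (w * w') :=
  ⟨mul_ne_zero h.1 h'.1, sec_mul h.2.1 h'.2.1, by
    rw [ord_mul _ h.1 h'.1]; push_cast; linarith [h.2.2, h'.2.2]⟩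

/-- the localisation of the ring of sections -/
def lq (β : BD K) (Q : Pl K) : Subalgebra ℂ K where
  carrier := {h | ∃ m w, Un β Q m w ∧ Sec ((m : ℝ) • β) (w * h)}
  mul_mem' := fun {a b} ⟨m, w, h, k⟩ ⟨m', w', h', k'⟩ => ⟨m + m', w * w', h.mul h', by
    rw [mul_mul_mul_comm]; exact sec_mul k k'⟩
  add_mem' := fun {a b} ⟨m, w, h, k⟩ ⟨m', w', h', k'⟩ => ⟨m + m', w * w', h.mul h', by
    rw [show w * w' * (a + b) = w * a * w' + w * (w' * b) by ring]
    exact (sec_mul k h'.2.1).add (sec_mul h.2.1 k')⟩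
  algebraMap_mem' c := ⟨0, 1, Un.one, by
    rw [one_mul, Algebra.algebraMap_eq_smul_one]; exact (Un.one (β := β) (Q := Q)).2.1.smul c⟩

theorem mem_lq {h : K} : h ∈ lq β Q ↔ ∃ m w, Un β Q m w ∧ Sec ((m : ℝ) • β) (w * h) := Iff.rfl

theorem lq_le {h : K} (hh : h ∈ lq β Q) : h ∈ Q.ring := by
  obtain ⟨m, w, u, k⟩ := hh
  by_cases h0 : h = 0
  · rw [h0]; exact Q.ring.zero_mem
  have a := (k.resolve_left (mul_ne_zero u.1 h0)) Q
  have b := u.2.2
  simp only [Pi.zero_apply, Pi.add_apply, dv_apply, Pi.smul_apply, smul_eq_mul,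
    ord_mul _ u.1 h0, Int.cast_add] at a
  refine (ord_nonneg_iff _ h0).1 (Int.cast_le (R := ℝ).1 ?_)
  push_cast; linarith

theorem inv_mem {h : K} (hh : h ∈ lq β Q) (h0 : h ≠ 0) (ho : Q.ord h = 0) : h⁻¹ ∈ lq β Q := by
  obtain ⟨m, w, u, k⟩ := hh
  refine ⟨m, w * h, ⟨mul_ne_zero u.1 h0, k, ?_⟩, by rw [mul_inv_cancel_right₀ h0]; exact u.2.1⟩
  rw [ord_mul _ u.1 h0, ho, add_zero]; exact u.2.2

theorem common (T : Finset K) (hT : ∀ c ∈ T, c ∈ lq β Q) :
    ∃ m w, Un β Q m w ∧ ∀ c ∈ T, Sec ((m : ℝ) • β) (w * c) := by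
  classical
  induction T using Finset.induction_on with
  | empty => exact ⟨0, 1, Un.one, by simp⟩
  | insert a T _ ih =>
    obtain ⟨m, w, u, k⟩ := ih fun c hc => hT c (Finset.mem_insert_of_mem hc)
    obtain ⟨m', w', u', k'⟩ := hT a (Finset.mem_insert_self _ _)
    refine ⟨m + m', w * w', u.mul u', fun c hc => ?_⟩
    rcases Finset.mem_insert.1 hc with rfl | hc
    · rw [mul_assoc]; exact sec_mul u.2.1 k'
    · rw [mul_right_comm]; exact sec_mul (k c hc) u'.2.1

theorem sub_mul (R : Pl K) {r : ℝ} {c u : K} (hc : c ∈ R.sub r) (hu : 0 ≤ R.ord u) :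
    c * u ∈ R.sub r := by
  by_cases h : c * u = 0
  · exact Or.inl h
  refine Or.inr ?_
  have a := hc.resolve_left (left_ne_zero_of_mul h)
  have b := Int.cast_le (R := ℝ).2 hu
  rw [ord_mul _ (left_ne_zero_of_mul h) (right_ne_zero_of_mul h)]
  push_cast at b ⊢; linarith

/-- an element with an equation one of whose coefficients is a unit -/
theorem horner (p : K[X]) (hp : ∀ i, p.coeff i ∈ lq β Q) {h : K} (hh : h ∈ Q.ring)
    (he : p.eval h = 0) (hu : ∃ i, p.coeff i ≠ 0 ∧ Q.ord (p.coeff i) = 0) : h ∈ lq β Q := by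
  classical
  by_cases h0 : h = 0
  · rw [h0]; exact zero_mem _
  obtain ⟨i₀, hi₀⟩ := hu
  obtain ⟨j, hj, hmax⟩ := Finset.exists_max_image
    (p.support.filter fun i => Q.ord (p.coeff i) = 0) id
    ⟨i₀, Finset.mem_filter.2 ⟨mem_support_iff.2 hi₀.1, hi₀.2⟩⟩
  obtain ⟨hj, hj0⟩ := Finset.mem_filter.1 hj
  obtain ⟨m, w, u, k⟩ := common (p.support.image p.coeff) fun c hc => by
    obtain ⟨i, -, rfl⟩ := Finset.mem_image.1 hc
    exact hp i
  set x : ℤ → K := fun e => ∑ i ∈ p.support.filter (j ≤ ·), p.coeff i * h ^ ((i : ℤ) - j + e)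
  have hx : ∀ e : ℤ, 0 ≤ e → e ≤ 1 → x e ∈ lq β Q := fun e e0 e1 => ⟨m, w, u, sec_iff.2 fun R => by
    have kR : ∀ i ∈ p.support, w * p.coeff i ∈ R.sub _ := fun i hi =>
      sec_iff.1 (k _ (Finset.mem_image_of_mem _ hi)) R
    rcases le_total 0 (R.ord h) with hR | hR
    · simp only [x, Finset.mul_sum]
      refine Submodule.sum_mem _ fun i hi => ?_
      obtain ⟨hi, hji⟩ := Finset.mem_filter.1 hi
      rw [← mul_assoc]
      refine sub_mul R (kR i hi) ?_
      rw [ord_zpow]; exact mul_nonneg (by omega) hR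
    · have e2 : x e = -∑ i ∈ p.support.filter (fun i => ¬ j ≤ i),
          p.coeff i * h ^ ((i : ℤ) - j + e) := by
        rw [eq_neg_iff_add_eq_zero, Finset.sum_filter_add_sum_filter_not]
        have : ∑ i ∈ p.support, p.coeff i * h ^ ((i : ℤ) - j + e) =
            p.eval h * h ^ (e - j) := by
          rw [eval_eq_sum, Polynomial.sum, Finset.sum_mul]
          refine Finset.sum_congr rfl fun i _ => ?_
          rw [mul_assoc, ← zpow_natCast, ← zpow_add₀ h0]; congr 2; ring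
        rw [this, he, zero_mul]
      rw [e2, mul_neg, Finset.mul_sum]
      refine neg_mem (Submodule.sum_mem _ fun i hi => ?_)
      obtain ⟨hi, hji⟩ := Finset.mem_filter.1 hi
      rw [← mul_assoc]
      refine sub_mul R (kR i hi) ?_
      rw [ord_zpow]; exact mul_nonneg_of_nonpos_of_nonpos (by omega) hR⟩
  have e1 : x 1 = x 0 * h := by
    simp only [x, Finset.sum_mul]
    refine Finset.sum_congr rfl fun i _ => ?_
    rw [add_zero, zpow_add₀ h0, zpow_one, mul_assoc]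
  have cj := mem_support_iff.1 hj
  have e0 : x 0 - p.coeff j ∈ Q.sub (-1) := by
    have : x 0 = p.coeff j + ∑ i ∈ (p.support.filter (j ≤ ·)).erase j,
        p.coeff i * h ^ ((i : ℤ) - j + 0) := by
      simp only [x]
      rw [← Finset.add_sum_erase _ _ (a := j) (Finset.mem_filter.2 ⟨hj, le_rfl⟩)]; simp
    rw [this, add_sub_cancel_left]
    refine Submodule.sum_mem _ fun i hi => ?_
    obtain ⟨hij, hi⟩ := Finset.mem_erase.1 hi
    obtain ⟨hi, hji⟩ := Finset.mem_filter.1 hi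
    refine sub_mul Q (Or.inr ?_) (by
      rw [ord_zpow]; exact mul_nonneg (by omega) (ord_nonneg_of_mem _ hh))
    have a := ord_nonneg_of_mem _ (lq_le (hp i))
    have b : Q.ord (p.coeff i) ≠ 0 := fun b =>
      hij (le_antisymm (hmax i (Finset.mem_filter.2 ⟨hi, b⟩)) hji)
    have c : (1 : ℤ) ≤ Q.ord (p.coeff i) := by omega
    have := Int.cast_le (R := ℝ).2 c
    push_cast at this; linarith
  have x0 : x 0 ≠ 0 ∧ Q.ord (x 0) = 0 := by
    rcases e0 with e0 | e0
    · rw [sub_eq_zero.1 e0]; exact ⟨cj, hj0⟩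
    have a : 0 < Q.ord (x 0 - p.coeff j) := Int.cast_lt (R := ℝ).1 (by push_cast; linarith)
    have b : x 0 - p.coeff j ≠ 0 := fun b => by rw [b, ord_zero] at a; exact lt_irrefl _ a
    refine ⟨fun c => ?_, ?_⟩
    · rw [c, zero_sub, ord_neg, hj0] at a; exact lt_irrefl _ a
    · have := ord_add_eq_of_lt Q.toPlace cj b (by rw [hj0]; exact a)
      rwa [add_sub_cancel, hj0] at this
  have := mul_mem (inv_mem (hx 0 le_rfl zero_le_one) x0.1 x0.2) (hx 1 zero_le_one le_rfl)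
  rwa [e1, inv_mul_cancel_left₀ x0.1] at this

theorem pid_step {C : Type} [CommRing C] [IsDomain C] [IsPrincipalIdealRing C] (p : C[X])
    (hp : p ≠ 0) (𝔭 : Ideal C) (h : 𝔭 ≠ ⊤) :
    ∃ g q, g ≠ 0 ∧ p = Polynomial.C g * q ∧ ∃ i, q.coeff i ∉ 𝔭 := by
  obtain ⟨g, hg⟩ := (IsPrincipalIdealRing.principal (Ideal.span (range p.coeff))).principal
  have hd : ∀ i, g ∣ p.coeff i := fun i => Ideal.mem_span_singleton.1 (by
    have : p.coeff i ∈ Ideal.span (range p.coeff) := Ideal.subset_span ⟨i, rfl⟩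
    rwa [hg] at this)
  obtain ⟨q, hq⟩ := (C_dvd_iff_dvd_coeff g p).2 hd
  have g0 : g ≠ 0 := fun g0 => hp (by rw [hq, g0, map_zero, zero_mul])
  refine ⟨g, q, g0, hq, by_contra fun hn => h ?_⟩
  push Not at hn
  have a : Ideal.span (range p.coeff) ≤ Submodule.map (LinearMap.mulLeft C g) 𝔭 :=
    Ideal.span_le.2 fun _ ⟨i, hi⟩ => ⟨q.coeff i, hn i, by rw [← hi, hq, coeff_C_mul]; rfl⟩
  obtain ⟨c, hc, e⟩ := a (show g ∈ _ by rw [hg]; exact Submodule.mem_span_singleton_self g)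
  have : c = 1 := mul_left_cancel₀ g0 (by rw [mul_one]; exact e)
  exact (Ideal.eq_top_iff_one _).2 (this ▸ hc)

/-- the residue map on the localisation -/
def rho (β : BD K) (Q : Pl K) : lq β Q →ₐ[ℂ] Q.κ where
  toFun f := IsLocalRing.residue Q.ring ⟨f, lq_le f.2⟩
  map_one' := map_one (IsLocalRing.residue Q.ring)
  map_mul' f g := map_mul (IsLocalRing.residue Q.ring) ⟨f, lq_le f.2⟩ ⟨g, lq_le g.2⟩
  map_zero' := map_zero (IsLocalRing.residue Q.ring)
  map_add' f g := map_add (IsLocalRing.residue Q.ring) ⟨f, lq_le f.2⟩ ⟨g, lq_le g.2⟩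
  commutes' _ := rfl

theorem rho_eq (f : lq β Q) : rho β Q f = Q.rd f := by
  have h : Q.rd f = IsLocalRing.residue Q.ring ⟨f, lq_le f.2⟩ := dif_pos (lq_le f.2)
  exact h.symm

theorem unit_of_rho {f : lq β Q} (h : rho β Q f ≠ 0) : (f : K) ≠ 0 ∧ Q.ord (f : K) = 0 := by
  have a : (⟨f, lq_le f.2⟩ : Q.ring) ∉ IsLocalRing.maximalIdeal Q.ring := fun a =>
    h ((IsLocalRing.residue_eq_zero_iff _).2 a)
  rw [mem_maximalIdeal_iff, not_or, not_lt] at a
  exact ⟨a.1, le_antisymm a.2 (ord_nonneg_of_mem _ (lq_le f.2))⟩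

/-- **LOQ** -/
theorem le_lq (hf : Algebra.trdeg ℂ K < Cardinal.aleph0)
    (h1 : Algebra.IsAlgebraic (Algebra.adjoin ℂ (Q.rd '' (lq β Q : Set K))) Q.κ)
    (h2 : Algebra.IsAlgebraic (lq β Q) K) {h : K} (hh : h ∈ Q.ring) : h ∈ lq β Q := by
  classical
  obtain ⟨t, ht, hb⟩ := exists_isTranscendenceBasis_subset (R := ℂ) (Q.rd '' (lq β Q : Set K))
  choose y hy using fun i : t => ht i.2
  let y' : t → lq β Q := fun i => ⟨y i, (hy i).1⟩
  have hr : ∀ p : MvPolynomial t ℂ, rho β Q (MvPolynomial.aeval y' p) =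
      MvPolynomial.aeval ((↑) : t → Q.κ) p := fun p => by
    rw [← AlgHom.comp_apply, MvPolynomial.comp_aeval]
    congr 2; funext i; rw [rho_eq]; exact (hy i).2
  have hv : ∀ p : MvPolynomial t ℂ, ((MvPolynomial.aeval y' p : lq β Q) : K) =
      MvPolynomial.aeval y p := fun p => by
    rw [← Subalgebra.val_apply, ← AlgHom.comp_apply, MvPolynomial.comp_aeval]; rfl
  have hu : ∀ p : MvPolynomial t ℂ, p ≠ 0 →
      MvPolynomial.aeval y p ≠ 0 ∧ Q.ord (MvPolynomial.aeval y p) = 0 := fun p hp => by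
    rw [← hv]
    exact unit_of_rho (by rw [hr]; exact fun e => hp (hb.1 (by rw [e, map_zero])))
  have hi : AlgebraicIndependent ℂ y := (injective_iff_map_eq_zero _).2 fun p hp =>
    by_contra fun h0 => (hu p h0).1 hp
  let k₀ := IntermediateField.adjoin ℂ (range y)
  have hk : ∀ a ∈ k₀, a ∈ lq β Q := fun a ha => by
    obtain ⟨r, s, rfl⟩ := (IntermediateField.mem_adjoin_range_iff _ _ _).1 ha
    by_cases s0 : s = 0
    · rw [s0, map_zero, div_zero]; exact zero_mem _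
    rw [div_eq_mul_inv]
    refine mul_mem ?_ (inv_mem ?_ (hu s s0).1 (hu s s0).2) <;> rw [← hv] <;> exact Subtype.prop _
  have t1 : Algebra.trdeg k₀ K ≤ 1 := by
    have a : Cardinal.mk t ≤ Algebra.trdeg ℂ k₀ :=
      (AlgebraicIndependent.of_comp k₀.val (x := fun i => (⟨y i,
        IntermediateField.subset_adjoin _ _ ⟨i, rfl⟩⟩ : k₀)) hi).cardinalMk_le_trdeg
    have b := trdeg_add_eq ℂ k₀ (A := K)
    have c : Cardinal.mk t + 1 = Algebra.trdeg ℂ K := by
      rw [hb.cardinalMk_eq_trdeg]; exact Q.dvl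
    have d : Cardinal.mk t < Cardinal.aleph0 := lt_of_le_of_lt (c ▸ self_le_add_right _ _) hf
    refine (Cardinal.add_le_add_iff_of_lt_aleph0 d).1 ?_
    rw [add_comm, add_comm 1, c, ← b]; exact add_le_add_left a _
  have : Algebra.IsAlgebraic (Algebra.adjoin k₀ (lq β Q : Set K)) K := ⟨fun a =>
    (h2.1 a).ringHom_of_comp_eq (Subring.inclusion (S := (lq β Q).toSubring)
      (T := (Algebra.adjoin k₀ (lq β Q : Set K)).toSubring) Algebra.subset_adjoin) (RingHom.id K)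
      (Subring.inclusion_injective _) rfl⟩
  obtain ⟨u, hu', hub⟩ := exists_isTranscendenceBasis_subset (R := k₀) (lq β Q : Set K)
  obtain ⟨z, hz, huz⟩ : ∃ z ∈ lq β Q, u ⊆ {z} := by
    have : u.Subsingleton := Cardinal.mk_le_one_iff_set_subsingleton.1
      (hub.cardinalMk_eq_trdeg ▸ t1)
    rcases this.eq_empty_or_singleton with rfl | ⟨z, rfl⟩
    · exact ⟨0, zero_mem _, empty_subset _⟩
    · exact ⟨z, hu' rfl, subset_rfl⟩
  let C := Algebra.adjoin k₀ {z}
  have hC : ∀ a : C, (a : K) ∈ lq β Q := fun a =>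
    Algebra.adjoin_induction (p := fun a _ => a ∈ lq β Q) (fun a ha => by rw [mem_singleton_iff.1 ha]; exact hz)
      (fun r => hk _ r.2) (fun _ _ _ _ => add_mem) (fun _ _ _ _ => mul_mem) a.2
  have : IsPrincipalIdealRing C := by
    have e : C = (aeval z : k₀[X] →ₐ[k₀] K).range := Algebra.adjoin_singleton_eq_range_aeval _ _
    rw [e]
    exact IsPrincipalIdealRing.of_surjective _ (aeval z : k₀[X] →ₐ[k₀] K).rangeRestrict_surjective
  have ha : IsAlgebraic C h := by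
    have := hub.isAlgebraic.1 h
    rw [Subtype.range_coe] at this
    exact this.ringHom_of_comp_eq (Subring.inclusion (S := (Algebra.adjoin k₀ u).toSubring)
      (T := C.toSubring) (Algebra.adjoin_mono huz)) (RingHom.id K) (Subring.inclusion_injective _) rfl
  obtain ⟨p, p0, hp⟩ := ha
  let ψ : C →+* Q.ring := (C.val : C →+* K).codRestrict Q.ring fun a => lq_le (hC a)
  obtain ⟨g, q, g0, e, i, hi⟩ := pid_step p p0 ((IsLocalRing.maximalIdeal Q.ring).comap ψ)
    (Ideal.comap_ne_top _ (IsLocalRing.maximalIdeal.isMaximal _).ne_top)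
  refine horner (q.map (algebraMap C K)) (fun i => by rw [coeff_map]; exact hC _) hh ?_ ⟨i, ?_⟩
  · rw [e, map_mul, aeval_C, mul_eq_zero] at hp
    rw [eval_map_algebraMap]
    exact hp.resolve_left fun a => g0 (Subtype.ext a)
  · rw [Ideal.mem_comap, mem_maximalIdeal_iff, not_or, not_lt] at hi
    rw [coeff_map]
    exact ⟨hi.1, le_antisymm hi.2 (ord_nonneg_of_mem _ (lq_le (hC _)))⟩

end Vale.Agent.P287D.Loq
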