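import Vale.Agent.P287D.Bm.Sub
import Vale.Agent.P287D.I.Pull

/-!
# P287D, block ADJ: a place of a prime divisor is cut out by a second prime divisor
-/

set_option linter.all false

open Set
open Vale.Agent.P297 (Place)
open Vale.Agent.P297Z
open Vale.Agent.P277Z Vale.Agent.P277Z.FI Vale.Agent.P277Z.F5

noncomputable section

namespace Vale.Agent.P287D.Aj

open Bm

variable {n : ℕ} {K : Type} [Field K] [Algebra ℂ K]

section rs

variable {N : ℕ} {L : Type} [Field L] [Algebra ℂ L] {S : Mdl n N L} {M : Mdl (n + 1) N K}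
  {P R : Place K} {s : Sub S M P} {y : S.F} {Q : Place L}

theorem rs_single (hR : Rst s) (hy : S.On y Q) (h : R ≠ P) :
    s.rs (Finsupp.single R 1) Q = Q.ord (s.res (M.eqn (ip s y) R)) := by
  rw [hR.rs y Q _ (Finsupp.single_eq_of_ne h.symm) hy, Finsupp.sum_single_index (zero_mul _),
    one_mul]

theorem rs_sum (hR : Rst s) (hy : S.On y Q) {D : P277Z.Div K} (hD : D P = 0) :
    s.rs D Q = ∑ R ∈ D.support, D R * s.rs (Finsupp.single R 1) Q := by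
  rw [hR.rs y Q _ hD hy]
  exact Finset.sum_congr rfl fun R h => by
    rw [rs_single (R := R) hR hy fun e => Finsupp.mem_support_iff.1 h (e ▸ hD)]

theorem rs_single_nonneg (hR : Rst s) (hy : S.On y Q) (h : R ≠ P) :
    0 ≤ s.rs (Finsupp.single R 1) Q := by
  rw [rs_single hR hy h]
  exact_mod_cast Pl.ord_nonneg_of_mem Q (ct_of_on hy _ (res_O (eqn_mem _ R)))

theorem on_of_rs (hR : Rst s) (hy : S.On y Q) (h : R ≠ P)
    (k : s.rs (Finsupp.single R 1) Q ≠ 0) : M.On (ip s y) R :=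
  by_contra fun e => k (by rw [rs_single hR hy h, eqn_off e, res_one, Pl.ord_one, Int.cast_zero])

theorem le_rs (hR : Rst s) (hy : S.On y Q) (k : s.rs (Finsupp.single R 1) Q = 1)
    {D : P277Z.Div K} (h0 : 0 ≤ D) (hD : D P = 0) : D R ≤ s.rs D Q := by
  rw [rs_sum hR hy hD]
  have h1 : ∀ R' ∈ D.support, 0 ≤ D R' * s.rs (Finsupp.single R' 1) Q := fun R' h =>
    mul_nonneg (h0 R') (rs_single_nonneg hR hy fun e => Finsupp.mem_support_iff.1 h (e ▸ hD))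
  by_cases h : R ∈ D.support
  · simpa [k] using Finset.single_le_sum h1 h
  · rw [Finsupp.notMem_support_iff.1 h]
    exact Finset.sum_nonneg h1

theorem rs_eq (hL : Loc M) (hL' : Loc S) (hR : Rst s) {T : Set (Place K)} (hT : M.Snc T)
    (hP : P ∈ T) (h1 : R ∈ T) (h2 : R ≠ P) (hy : S.On y Q)
    (k : s.rs (Finsupp.single R 1) Q = 1) {D : P277Z.Div K} (hD : D P = 0)
    (hs : (D.support : Set (Place K)) ⊆ T) : s.rs D Q = D R := by
  rw [rs_sum hR hy hD, Finset.sum_eq_single R, k, mul_one]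
  · intro R' h e
    rw [by_contra fun c => e (rs_uniq hL hL' (box.jac n) hR hT hP (hs h) h1
      (fun e => Finsupp.mem_support_iff.1 h (e ▸ hD)) h2 c (k.trans_ne one_ne_zero)), mul_zero]
  · intro h
    rw [Finsupp.notMem_support_iff.1 h, zero_mul]

end rs

theorem ord_lift {P : Pl K} {u : K} (h : u ∈ P.ring) (h0 : P.rd u ≠ 0) : u ≠ 0 ∧ P.ord u = 0 := by
  have := not_or.1 (mt (rd_zero_iff P h).2 h0)
  exact ⟨this.1, le_antisymm (not_lt.1 this.2) (Pl.ord_nonneg_of_mem _ h)⟩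

/-- `R` cuts out `Q` on `P` on a modification -/
structure Cut {M : Mdl (n + 2) 0 K} {P : Pl K} {S : Mdl (n + 1) 0 P.κ} (s : Sub S M P.toPlace)
    (Q : Pl P.κ) (T : Set (Place K)) (R : Pl K) (M₁ : Mdl (n + 2) 0 K) (m : Mod M₁ M)
    (S₁ : Mdl (n + 1) 0 P.κ) (s₁ : Sub S₁ M₁ P.toPlace) (m' : Mod S₁ S) (y : S₁.F) : Prop where
  proj : M₁.Proj
  proj' : S₁.Proj
  res : s₁.res = P.rd
  rst : Rst s₁
  snc : M₁.Snc {P.toPlace}
  ne : R ≠ P
  onQ : S₁.On y Q.toPlace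
  onR : M₁.On (ip s₁ y) R.toPlace
  one : s₁.rs (Finsupp.single R.toPlace 1) Q.toPlace = 1
  pull : ∀ D, D P.toPlace = 0 → s₁.rs (M.pull M₁ D) = S.pull S₁ (s.rs D)
  eq : ∀ D : P277Z.Div K, D P.toPlace = 0 → M₁.Dv D →
    (∀ R', M.Pr R' → D R' ≠ 0 → R' ∈ T) → s₁.rs D Q.toPlace = D R.toPlace
  bas : ∀ x, M₁.Ct x P.toPlace → (∀ f ∈ M₁.O x, P.rd f ∈ Q.ring) → ∃ z : Fin n → K,
    (∀ i, z i ∈ M₁.O x) ∧ AlgebraicIndependent ℂ fun i => Q.rd (P.rd (z i))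

theorem low {M : Mdl (n + 2) 0 K} (hM : M.Proj) {P : Pl K} (hP : M.Snc {P.toPlace})
    {S : Mdl (n + 1) 0 P.κ} (s : Sub S M P.toPlace) (hS : S.Proj) (hs : s.res = P.rd)
    (Q : Pl P.κ) {T : Set (Place K)} (hT : T.Finite) (a : ℕ) :
    ∃ R M₁ m S₁ s₁ m' y, Cut s Q T R M₁ m S₁ s₁ m' y ∧ (a : ℤ) ≤ R.ord P.t := by
  classical
  have hL := loc hM
  have hp : M.Pr P.toPlace := hP.1 _ rfl
  obtain ⟨w, w1, w2⟩ := exists_basis (ff hS) Q
  choose z z1 z2 using fun i => rd_surj P (w i)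
  obtain ⟨u, u1, u2⟩ := rd_surj P Q.t
  obtain ⟨u0, u3⟩ := ord_lift u1 (u2 ▸ (ord_t Q).1)
  let T' : Set (Place K) := insert P.toPlace ((T ∩ {R | M.Pr R}) ∪ (M.div u).support)
  have hT' : T'.Finite := ((hT.inter_of_left _).union (Finset.finite_toSet _)).insert _
  obtain ⟨M₁, ⟨m⟩, h1, h2⟩ := box.hir _ _ K M hM T' (n + 1)
    (Fin.cons {P.t, u ^ a} fun i => {1, z i}) hT' fun j => by
      refine Fin.cases ⟨P.t, by simp, (ord_t P).1⟩ (fun i => ⟨1, by simp, one_ne_zero⟩) j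
  have b := box.bir _ _ K M hM M₁ m h1
  have hL₁ := loc h1
  have h3 : M₁.Snc (T' ∪ Exc M₁ M) := snc_of_good h2 subset_rfl fun R hR => hR.elim
    (fun k => b.pr R (by
      rcases k with rfl | k | k
      exacts [hp, k.2, dv_div u R k])) And.left
  have hP' : P.toPlace ∈ T' ∪ Exc M₁ M := .inl (mem_insert _ _)
  have h4 : M₁.Snc {P.toPlace} := snc_mono h3 (singleton_subset_iff.2 hP')
  obtain ⟨S₁, s₁, m', h5, h6, h7⟩ := (box.rst _ _ K M hM _ S _ s hP).mod M₁ m h1 h4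
  have hR := box.rst _ _ K M₁ h1 _ S₁ _ s₁ h4
  have e := h6.trans hs
  have bas : ∀ x, M₁.Ct x P.toPlace → (∀ f ∈ M₁.O x, P.rd f ∈ Q.ring) → ∃ z : Fin n → K,
      (∀ i, z i ∈ M₁.O x) ∧ AlgebraicIndependent ℂ fun i => Q.rd (P.rd (z i)) := fun x hx hy => by
    have k : ∀ i, ∃ v ∈ M₁.O x, Q.rd (P.rd v) = Q.rd (w i) ∨
        Q.rd (P.rd v) = (Q.rd (w i))⁻¹ := fun i => by
      obtain ⟨f, f1, f0, f2⟩ := (h2 x).1 i.succ
      rw [Fin.cons_succ] at f1 f2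
      rcases Finset.mem_insert.1 f1 with rfl | f1
      · exact ⟨_, f2 (z i) (by simp), .inl (by rw [_root_.div_one, z2])⟩
      · obtain rfl := Finset.mem_singleton.1 f1
        have k1 := f2 1 (by simp)
        rw [one_div] at k1
        have k2 := hx _ k1
        have k3 := rd_inv P (z1 i) k2 f0
        have k4 := hy _ k1
        rw [k3, z2] at k4
        refine ⟨_, k1, .inr ?_⟩
        rw [k3, z2]
        refine rd_inv Q (w1 i) k4 fun c => ?_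
        have := rd_mul P (z1 i) k2
        rw [mul_inv_cancel₀ f0, rd_one, z2, c, zero_mul] at this
        exact one_ne_zero this
    choose v k1 k2 using k
    exact ⟨v, k1, (ai_inv w2 k2).1⟩
  obtain ⟨y, hy⟩ := ct h5 Q
  have hQ : S₁.On y Q.toPlace := by
    obtain ⟨v, k1, k2⟩ := bas _ (ct_of_on (on_ip s₁ y)) fun f hf => hy _ (e ▸ res_O hf)
    exact on_of_ai h5 hy (z := fun i => P.rd (v i)) (fun i => e ▸ res_O (k1 i)) k2
  have sup : ∀ D : P277Z.Div K, M₁.Dv D → (∀ R', M.Pr R' → D R' ≠ 0 → R' ∈ T') →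
      (D.support : Set (Place K)) ⊆ T' ∪ Exc M₁ M := fun D k1 k2 R hR =>
    (em (M.Pr R)).imp (fun c => k2 R c (Finsupp.mem_support_iff.1 hR)) fun c => ⟨k1 R hR, c⟩
  have d0 : M₁.div u P.toPlace = 0 := by rw [div_apply hL₁ _ (b.pr _ hp), u3, Int.cast_zero]
  have d1 : s₁.rs (M₁.div u) Q.toPlace = 1 := by
    rw [hR.div u u0 u3, div_apply (loc h5) _ ⟨y, hQ⟩, e, u2, (ord_t Q).2, Int.cast_one]
  have d2 := sup _ (dv_div u) fun R c k => .inr (.inr (Finsupp.mem_support_iff.2 (by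
    rwa [div_apply hL₁ _ (b.pr _ c), ← div_apply hL _ c] at k)))
  obtain ⟨R, r1, r2⟩ := Finset.exists_ne_zero_of_sum_ne_zero
    (((rs_sum hR hQ d0).symm.trans d1).trans_ne one_ne_zero)
  have r3 : R ≠ P.toPlace := fun c => Finsupp.mem_support_iff.1 r1 (c ▸ d0)
  have r4 := ((hR.snc _ hP' h3).2 R (d2 r1) r3 Q.toPlace).resolve_left (right_ne_zero_of_mul r2)
  have r5 := on_of_rs hR hQ r3 (right_ne_zero_of_mul r2)
  have r6 := fun D => rs_eq (D := D) hL₁ (loc h5) hR h3 hP' (d2 r1) r3 hQ r4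
  obtain ⟨R, rfl⟩ := pl_of_pr h1 ⟨_, r5⟩
  refine ⟨R, M₁, m, S₁, s₁, m', y, ⟨h1, h5, e, hR, h4, fun c => r3 (c ▸ rfl), hQ, r5, r4, h7,
    fun D k1 k2 k3 => r6 D k1 (sup D k2 fun R' c k => .inr (.inl ⟨k3 R' c k, c⟩)),
    bas⟩, ?_⟩
  have r7 : R.ord u = 1 := by
    have := (r6 _ d0 d2).symm.trans d1
    rw [div_apply hL₁ _ ⟨_, r5⟩] at this
    exact_mod_cast this
  obtain ⟨f, f1, f0, f2⟩ := (h2 (ip s₁ y)).1 0
  rw [Fin.cons_zero] at f1 f2
  have ua := pow_ne_zero a u0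
  rcases Finset.mem_insert.1 f1 with rfl | f1
  · have := Pl.ord_nonneg_of_mem _ (ct_of_on (on_ip s₁ y) _ (f2 (u ^ a) (by simp)))
    rw [Pl.ord_div _ ua f0, Pl.ord_pow, u3, (ord_t P).2] at this
    omega
  · obtain rfl := Finset.mem_singleton.1 f1
    have := Pl.ord_nonneg_of_mem _ (ct_of_on r5 _ (f2 P.t (by simp)))
    rw [Pl.ord_div _ (ord_t P).1 ua, Pl.ord_pow, r7] at this
    omega

end Vale.Agent.P287D.Aj
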